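import Mathlib.Topology.TietzeExtension
import Mathlib.Topology.PartitionOfUnity
import Mathlib.Topology.Compactification.OnePoint.Basic
import Mathlib.Algebra.BigOperators.Field
import Vale.Agent.P133.R2.H778.PropC

/-!
P133 (helper522, block [T] of helper634's #15282): weakly infinite-dimensional spaces
(Alexandroff) and the weights `c n`, `a n`.
-/

namespace Vale.Agent.P133.W634

open Set Topology

universe u v

/-- `X` is weakly infinite-dimensional (Alexandroff): for every sequence of open covers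
`{G n, H n}` of `X` by two sets there are disjoint open sets `U n ⊆ G n` and `V n ⊆ H n` such
that all the sets `U n`, `V n` together cover `X`. -/
def WeaklyInfDim (X : Type v) [TopologicalSpace X] : Prop :=
  ∀ G H : ℕ → Set X, (∀ n, IsOpen (G n) ∧ IsOpen (H n) ∧ G n ∪ H n = univ) →
    ∃ U V : ℕ → Set X, (∀ n, IsOpen (U n) ∧ IsOpen (V n) ∧ Disjoint (U n) (V n) ∧
      U n ⊆ G n ∧ V n ⊆ H n) ∧ ⋃ n, (U n ∪ V n) = univ

/-- Property C implies weakly infinite-dimensional. -/
theorem weaklyInfDim_of_propertyC {X : Type v} [TopologicalSpace X]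
    (h : Vale.Agent.P133.R2.H778.PropertyC X) : WeaklyInfDim X := by
  intro G H hGH
  obtain ⟨V, hV, hcov⟩ := h (fun n => {G n, H n}) (by
    intro n
    refine ⟨?_, ?_⟩
    · rintro u hu
      rcases hu with rfl | hu
      · exact (hGH n).1
      · rw [mem_singleton_iff] at hu
        subst hu
        exact (hGH n).2.1
    · rw [sUnion_pair]
      exact (hGH n).2.2)
  refine ⟨fun n => ⋃₀ {v | v ∈ V n ∧ v ⊆ G n}, fun n => ⋃₀ {v | v ∈ V n ∧ ¬ v ⊆ G n}, ?_, ?_⟩
  · intro n
    refine ⟨?_, ?_, ?_, ?_, ?_⟩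
    · exact isOpen_sUnion fun v hv => ((hV n).1 v hv.1).1
    · exact isOpen_sUnion fun v hv => ((hV n).1 v hv.1).1
    · rw [Set.disjoint_left]
      rintro x ⟨v, hv, hxv⟩ ⟨w, hw, hxw⟩
      have hvw : v ≠ w := by
        rintro rfl
        exact hw.2 hv.2
      exact Set.disjoint_left.1 ((hV n).2 hv.1 hw.1 hvw) hxv hxw
    · exact sUnion_subset fun v hv => hv.2
    · refine sUnion_subset fun v hv => ?_
      obtain ⟨u, hu, hvu⟩ := ((hV n).1 v hv.1).2
      rcases hu with rfl | hu
      · exact absurd hvu hv.2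
      · rw [mem_singleton_iff] at hu
        subst hu
        exact hvu
  · rw [eq_univ_iff_forall] at hcov ⊢
    intro x
    obtain ⟨n, hn⟩ := mem_iUnion.1 (hcov x)
    obtain ⟨v, hv, hxv⟩ := hn
    refine mem_iUnion.2 ⟨n, ?_⟩
    by_cases h' : v ⊆ G n
    · exact Or.inl ⟨v, ⟨hv, h'⟩, hxv⟩
    · exact Or.inr ⟨v, ⟨hv, h'⟩, hxv⟩

/-- Weakly infinite-dimensional passes to closed subspaces. -/
theorem WeaklyInfDim.of_isClosedEmbedding {X : Type v} {Y : Type u} [TopologicalSpace X]
    [TopologicalSpace Y] {f : Y → X} (hf : IsClosedEmbedding f) (hX : WeaklyInfDim X) :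
    WeaklyInfDim Y := by
  intro G H hGH
  have hG : ∀ n, ∃ G' : Set X, IsOpen G' ∧ f ⁻¹' G' = G n := fun n =>
    hf.isInducing.isOpen_iff.1 (hGH n).1
  have hH : ∀ n, ∃ H' : Set X, IsOpen H' ∧ f ⁻¹' H' = H n := fun n =>
    hf.isInducing.isOpen_iff.1 (hGH n).2.1
  choose G' hG' hG'' using hG
  choose H' hH' hH'' using hH
  obtain ⟨U, V, hUV, hcov⟩ := hX (fun n => G' n ∪ (range f)ᶜ) (fun n => H' n ∪ (range f)ᶜ) (by
    intro n
    refine ⟨(hG' n).union hf.isClosed_range.isOpen_compl,
      (hH' n).union hf.isClosed_range.isOpen_compl, ?_⟩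
    rw [eq_univ_iff_forall]
    intro x
    by_cases hx : x ∈ range f
    · obtain ⟨y, rfl⟩ := hx
      have hy : y ∈ G n ∪ H n := by
        rw [(hGH n).2.2]
        exact mem_univ y
      rcases hy with hy | hy
      · rw [← hG'' n] at hy
        exact Or.inl (Or.inl hy)
      · rw [← hH'' n] at hy
        exact Or.inr (Or.inl hy)
    · exact Or.inl (Or.inr hx))
  refine ⟨fun n => f ⁻¹' U n, fun n => f ⁻¹' V n, ?_, ?_⟩
  · intro n
    obtain ⟨h1, h2, h3, h4, h5⟩ := hUV n
    refine ⟨h1.preimage hf.continuous, h2.preimage hf.continuous, h3.preimage f, ?_, ?_⟩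
    · intro y hy
      rcases h4 hy with h | h
      · rw [← hG'' n]
        exact h
      · exact absurd (mem_range_self y) h
    · intro y hy
      rcases h5 hy with h | h
      · rw [← hH'' n]
        exact h
      · exact absurd (mem_range_self y) h
  · rw [eq_univ_iff_forall] at hcov ⊢
    intro y
    obtain ⟨n, hn⟩ := mem_iUnion.1 (hcov (f y))
    exact mem_iUnion.2 ⟨n, hn⟩

/-- Closed subspaces. -/
theorem WeaklyInfDim.of_isClosed {X : Type v} [TopologicalSpace X] {K : Set X} (hK : IsClosed K)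
    (hX : WeaklyInfDim X) : WeaklyInfDim K :=
  hX.of_isClosedEmbedding hK.isClosedEmbedding_subtypeVal

/-- A compact subset of a set that is weakly infinite-dimensional. -/
theorem WeaklyInfDim.mono {X : Type v} [TopologicalSpace X] [T2Space X] {K L : Set X}
    (hK : IsCompact K) (hKL : K ⊆ L) (hX : WeaklyInfDim L) : WeaklyInfDim K := by
  have : CompactSpace K := isCompact_iff_compactSpace.1 hK
  exact hX.of_isClosedEmbedding (f := inclusion hKL)
    ((continuous_inclusion hKL).isClosedEmbedding (inclusion_injective hKL))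

/-- Extension of a continuous function from a compact subset of a locally compact Hausdorff
space. -/
theorem exists_extension {X : Type v} [TopologicalSpace X] [T2Space X] [LocallyCompactSpace X]
    {K : Set X} (hK : IsCompact K) (f : C(K, ℝ)) : ∃ g : C(X, ℝ), ∀ t : K, g t = f t := by
  have : CompactSpace K := isCompact_iff_compactSpace.1 hK
  have he : IsClosedEmbedding (fun t : K => ((t : X) : OnePoint X)) :=
    (OnePoint.continuous_coe.comp continuous_subtype_val).isClosedEmbedding
      (OnePoint.coe_injective.comp Subtype.val_injective)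
  obtain ⟨g, hg⟩ := ContinuousMap.exists_extension' he f
  refine ⟨⟨fun x => g (x : OnePoint X), g.continuous.comp OnePoint.continuous_coe⟩, ?_⟩
  intro t
  exact congrFun hg t

/-- The weights on a compact weakly infinite-dimensional Hausdorff space. -/
theorem exists_partition {K : Type v} [TopologicalSpace K] [CompactSpace K] [T2Space K]
    (hW : WeaklyInfDim K) (G H : ℕ → Set K)
    (hGH : ∀ n, IsOpen (G n) ∧ IsOpen (H n) ∧ G n ∪ H n = univ) :
    ∃ (N : ℕ) (c a : ℕ → C(K, ℝ)), (∀ n t, 0 ≤ c n t) ∧ (∀ n t, 0 ≤ a n t) ∧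
      (∀ t, ∑ n ∈ Finset.range N, (c n t + a n t) = 1) ∧ (∀ n t, c n t * a n t = 0) ∧
      (∀ n t, 0 < c n t → t ∈ G n) ∧ (∀ n t, 0 < a n t → t ∈ H n) := by
  classical
  obtain ⟨U, V, hUV, hcov⟩ := hW G H hGH
  -- finitely many of them cover
  obtain ⟨F, hF⟩ := isCompact_univ.elim_finite_subcover (fun n => U n ∪ V n)
    (fun n => (hUV n).1.union (hUV n).2.1) hcov.ge
  obtain ⟨N, hN⟩ : ∃ N, ∀ n ∈ F, n < N := ⟨F.sup id + 1, fun n hn =>
    Nat.lt_succ_of_le (Finset.le_sup (f := id) hn)⟩
  let W : Fin N × Bool → Set K := fun i => if i.2 then U i.1 else V i.1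
  have hWo : ∀ i, IsOpen (W i) := by
    rintro ⟨n, b⟩
    cases b
    · exact (hUV n).2.1
    · exact (hUV n).1
  have hWc : (univ : Set K) ⊆ ⋃ i, W i := by
    intro x _
    obtain ⟨n, hn⟩ := mem_iUnion.1 (hF (mem_univ x))
    obtain ⟨hnF, hx⟩ := mem_iUnion.1 hn
    rcases hx with hx | hx
    · exact mem_iUnion.2 ⟨(⟨n, hN n hnF⟩, true), hx⟩
    · exact mem_iUnion.2 ⟨(⟨n, hN n hnF⟩, false), hx⟩
  obtain ⟨f, hf⟩ := PartitionOfUnity.exists_isSubordinate isClosed_univ W hWo
    hWc
  have hsub : ∀ i t, 0 < f i t → t ∈ W i := fun i t ht =>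
    hf i (subset_tsupport _ (Function.mem_support.2 ht.ne'))
  have hsum : ∀ t, ∑ i, f i t = 1 := by
    intro t
    rw [← finsum_eq_sum_of_fintype]
    exact f.sum_eq_one (mem_univ t)
  let c : ℕ → C(K, ℝ) := fun n => if h : n < N then f (⟨n, h⟩, true) else 0
  let a : ℕ → C(K, ℝ) := fun n => if h : n < N then f (⟨n, h⟩, false) else 0
  have hc : ∀ n (h : n < N), c n = f (⟨n, h⟩, true) := fun n h => dif_pos h
  have ha : ∀ n (h : n < N), a n = f (⟨n, h⟩, false) := fun n h => dif_pos h
  have hc0 : ∀ n (h : ¬ n < N), c n = 0 := fun n h => dif_neg h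
  have ha0 : ∀ n (h : ¬ n < N), a n = 0 := fun n h => dif_neg h
  have hcp : ∀ n t, 0 ≤ c n t := by
    intro n t
    by_cases h : n < N
    · rw [hc n h]
      exact f.nonneg _ t
    · rw [hc0 n h]
      exact le_rfl
  have hap : ∀ n t, 0 ≤ a n t := by
    intro n t
    by_cases h : n < N
    · rw [ha n h]
      exact f.nonneg _ t
    · rw [ha0 n h]
      exact le_rfl
  have hcU : ∀ n t, 0 < c n t → t ∈ U n := by
    intro n t ht
    by_cases h : n < N
    · rw [hc n h] at ht
      exact hsub _ t ht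
    · rw [hc0 n h] at ht
      exact absurd ht (lt_irrefl 0)
  have haV : ∀ n t, 0 < a n t → t ∈ V n := by
    intro n t ht
    by_cases h : n < N
    · rw [ha n h] at ht
      exact hsub _ t ht
    · rw [ha0 n h] at ht
      exact absurd ht (lt_irrefl 0)
  refine ⟨N, c, a, hcp, hap, ?_, ?_, fun n t ht => (hUV n).2.2.2.1 (hcU n t ht),
    fun n t ht => (hUV n).2.2.2.2 (haV n t ht)⟩
  · intro t
    rw [← hsum t, Fintype.sum_prod_type, Finset.sum_range]
    refine Finset.sum_congr rfl fun i _ => ?_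
    rw [Fintype.sum_bool, hc i i.2, ha i i.2]
  · intro n t
    by_contra hne
    have h1 : 0 < c n t := lt_of_le_of_ne (hcp n t) fun h => hne (by rw [← h, zero_mul])
    have h2 : 0 < a n t := lt_of_le_of_ne (hap n t) fun h => hne (by rw [← h, mul_zero])
    exact Set.disjoint_left.1 (hUV n).2.2.1 (hcU n t h1) (haV n t h2)

/-- **Block [T].** The weights `c n`, `a n` on a locally compact Hausdorff space. -/
theorem exists_weights {X : Type v} [TopologicalSpace X] [T2Space X] [LocallyCompactSpace X]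
    {K : Set X} (hK : IsCompact K) (hW : WeaklyInfDim K) (G H : ℕ → Set X)
    (hG : ∀ n, IsOpen (G n)) (hH : ∀ n, IsOpen (H n)) (hGH : ∀ n, K ⊆ G n ∪ H n) :
    ∃ (N : ℕ) (c a : ℕ → C(X, ℝ)), (∀ n t, 0 ≤ c n t) ∧ (∀ n t, 0 ≤ a n t) ∧
      (∀ t, ∑ n ∈ Finset.range N, (c n t + a n t) ≤ 1) ∧ (∀ n t, c n t * a n t = 0) ∧
      ∀ t ∈ K, ∑ n ∈ Finset.range N, (c n t + a n t) = 1 ∧
        (∀ n, 0 < c n t → t ∈ G n) ∧ (∀ n, 0 < a n t → t ∈ H n) := by
  classical
  have : CompactSpace K := isCompact_iff_compactSpace.1 hK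
  obtain ⟨N, c, a, hc, ha, hs, hca, hcG, haH⟩ := exists_partition hW
    (fun n => Subtype.val ⁻¹' G n) (fun n => Subtype.val ⁻¹' H n) (by
      intro n
      refine ⟨(hG n).preimage continuous_subtype_val, (hH n).preimage continuous_subtype_val, ?_⟩
      rw [eq_univ_iff_forall]
      rintro ⟨x, hx⟩
      exact hGH n hx)
  choose d hd using fun n => exists_extension hK (c n - a n)
  -- the positive and negative parts of the extensions
  have hdp : ∀ n (t : K), max (d n t) 0 = c n t := by
    intro n t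
    have h := hd n t
    rw [ContinuousMap.sub_apply] at h
    rw [h]
    rcases mul_eq_zero.1 (hca n t) with h0 | h0
    · rw [h0, zero_sub]
      exact max_eq_right (neg_nonpos.2 (ha n t))
    · rw [h0, sub_zero]
      exact max_eq_left (hc n t)
  have hdm : ∀ n (t : K), max (-(d n t)) 0 = a n t := by
    intro n t
    have h := hd n t
    rw [ContinuousMap.sub_apply] at h
    rw [h]
    rcases mul_eq_zero.1 (hca n t) with h0 | h0
    · rw [h0, zero_sub, neg_neg]
      exact max_eq_left (ha n t)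
    · rw [h0, sub_zero]
      exact max_eq_right (neg_nonpos.2 (hc n t))
  let S : X → ℝ := fun t => ∑ n ∈ Finset.range N, (max (d n t) 0 + max (-(d n t)) 0)
  have hSc : Continuous S := by
    refine continuous_finsetSum _ fun n _ => ?_
    exact ((d n).continuous.max continuous_const).add ((d n).continuous.neg.max continuous_const)
  have hM : ∀ t, 0 < max 1 (S t) := fun t => lt_of_lt_of_le one_pos (le_max_left _ _)
  let c' : ℕ → C(X, ℝ) := fun n => ⟨fun t => max (d n t) 0 / max 1 (S t),
    ((d n).continuous.max continuous_const).div (continuous_const.max hSc) fun t => (hM t).ne'⟩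
  let a' : ℕ → C(X, ℝ) := fun n => ⟨fun t => max (-(d n t)) 0 / max 1 (S t),
    ((d n).continuous.neg.max continuous_const).div (continuous_const.max hSc)
      fun t => (hM t).ne'⟩
  have hc' : ∀ n t, c' n t = max (d n t) 0 / max 1 (S t) := fun n t => rfl
  have ha' : ∀ n t, a' n t = max (-(d n t)) 0 / max 1 (S t) := fun n t => rfl
  have hSs : ∀ t, ∑ n ∈ Finset.range N, (c' n t + a' n t) = S t / max 1 (S t) := by
    intro t
    have : ∀ n, c' n t + a' n t = (max (d n t) 0 + max (-(d n t)) 0) / max 1 (S t) := by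
      intro n
      rw [hc', ha', add_div]
    simp only [this]
    rw [← Finset.sum_div]
  have hSK : ∀ t : K, S t = 1 := by
    intro t
    rw [← hs t]
    refine Finset.sum_congr rfl fun n _ => ?_
    rw [hdp n t, hdm n t]
  refine ⟨N, c', a', ?_, ?_, ?_, ?_, ?_⟩
  · intro n t
    exact div_nonneg (le_max_right _ _) (hM t).le
  · intro n t
    exact div_nonneg (le_max_right _ _) (hM t).le
  · intro t
    rw [hSs t]
    exact (div_le_one (hM t)).2 (le_max_right _ _)
  · intro n t
    rw [hc', ha']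
    rcases le_total (d n t) 0 with h | h
    · rw [max_eq_right h, zero_div, zero_mul]
    · rw [max_eq_right (neg_nonpos.2 h), zero_div, mul_zero]
  · intro t ht
    have h1 : S t = 1 := hSK ⟨t, ht⟩
    refine ⟨?_, ?_, ?_⟩
    · rw [hSs t, h1, max_self, div_one]
    · intro n hn
      rw [hc', h1, max_self, div_one] at hn
      have := hdp n ⟨t, ht⟩
      exact hcG n ⟨t, ht⟩ (by rw [← this]; exact hn)
    · intro n hn
      rw [ha', h1, max_self, div_one] at hn
      have := hdm n ⟨t, ht⟩
      exact haH n ⟨t, ht⟩ (by rw [← this]; exact hn)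

end Vale.Agent.P133.W634
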