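import Vale.Agent.P133.W634.Letters
import Vale.Agent.P133.W634.H665.Spec

/-!
P133 (helper634), W634 [A]: one gluing step.
-/

open scoped ComplexOrder CStarAlgebra
open Finset

namespace Vale.Agent.P133.W634

open Vale.Agent.P133.R2.H474 Vale.Agent.P133.R2.H28

universe u v

section

variable {X : Type v} [TopologicalSpace X] {B : X → Type u}
  [∀ t, NonUnitalCStarAlgebra (B t)] {A : Type u} [NonUnitalCStarAlgebra A]
  {π : ∀ t, A →⋆ₙₐ[ℂ] B t}

/-- multiplication by bounded nonnegative functions -/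
theorem IsContFieldMap.mulC (hπ : IsContFieldMap π) (f : C(X, ℝ)) {C : ℝ} (hC : 0 < C)
    (hf : ∀ t, 0 ≤ f t ∧ f t ≤ C) (a : A) : ∃ b : A, ∀ t, π t b = (f t) • π t a := by
  obtain ⟨b, hb⟩ := hπ.2.2.2.1 (C⁻¹ • f) (fun t => by
    obtain ⟨h1, h2⟩ := hf t
    simp only [ContinuousMap.coe_smul, Pi.smul_apply, smul_eq_mul]
    refine ⟨by positivity, ?_⟩
    rw [inv_mul_le_iff₀ hC, mul_one]
    exact h2) a
  refine ⟨(C : ℂ) • b, fun t => ?_⟩
  rw [map_smul, hb, smul_smul, ← Complex.ofReal_mul]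
  simp only [ContinuousMap.coe_smul, Pi.smul_apply, smul_eq_mul]
  rw [← mul_assoc, mul_inv_cancel₀ hC.ne', one_mul, Complex.coe_smul]

theorem IsContFieldMap.eq_zero (hπ : IsContFieldMap π) {a : A} (h : ∀ t, π t a = 0) : a = 0 := by
  have := hπ.2.1 a 0 le_rfl fun t => by rw [h t, norm_zero]
  exact norm_le_zero_iff.1 this

theorem IsContFieldMap.ext (hπ : IsContFieldMap π) {a b : A} (h : ∀ t, π t a = π t b) : a = b := by
  rw [← sub_eq_zero]
  exact hπ.eq_zero fun t => by rw [map_sub, h t, sub_self]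

/-- multiplication by functions stays in the hereditary subalgebra -/
theorem IsContFieldMap.mul_her (hπ : IsContFieldMap π) (f : C(X, ℝ)) {C : ℝ} (hC : 0 < C)
    (hf : ∀ t, 0 ≤ f t ∧ f t ≤ C) {a e b : A} (he : e ∈ her a)
    (hb : ∀ t, π t b = (f t) • π t e) : b ∈ her a := by
  refine her_lim fun ε hε => ?_
  obtain ⟨_, ⟨w, rfl⟩, h1⟩ := Metric.mem_closure_iff.1 he (ε / (2 * C)) (by positivity)
  obtain ⟨w', hw'⟩ := hπ.mulC f hC hf w
  refine ⟨a * w' * a, her_self a _, ?_⟩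
  rw [dist_eq_norm] at h1
  have h2 : ‖a * w' * a - b‖ ≤ ε / 2 := by
    refine hπ.2.1 _ _ (half_pos hε).le fun t => ?_
    have h3 : π t (a * w' * a - b) = (f t) • π t (a * w * a - e) := by
      rw [map_sub, map_mul, map_mul, hb, hw', map_sub, map_mul, map_mul, smul_sub,
        mul_smul_comm, smul_mul_assoc]
    rw [h3, norm_smul, Real.norm_of_nonneg (hf t).1]
    have h5 : ‖π t (a * w * a - e)‖ ≤ ‖a * w * a - e‖ :=
      NonUnitalStarAlgHom.norm_apply_le _ _
    have h6 : ‖a * w * a - e‖ < ε / (2 * C) := by rw [norm_sub_rev]; exact h1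
    calc f t * ‖π t (a * w * a - e)‖ ≤ C * (ε / (2 * C)) :=
          mul_le_mul (hf t).2 (h5.trans h6.le) (norm_nonneg _) hC.le
      _ = ε / 2 := by field_simp
  linarith

end

section

variable {B : Type u} [NonUnitalCStarAlgebra B] [PartialOrder B] [StarOrderedRing B]

/-- two orthogonal elements with positive coefficients -/
theorem two_not_nonpos {x w : B} (hx : 0 ≤ x) (hxn : ‖x‖ = 1) (hw : 0 ≤ w) (hwn : ‖w‖ = 1)
    (hxw : x * w = 0) {r s : ℝ} (hr : 0 < r) (hs : 0 < s) :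
    ¬ r • x - s • w ≤ 0 ∧ ¬ 0 ≤ r • x - s • w := by
  constructor
  · intro hle
    rw [sub_nonpos] at hle
    have t := norm_test (y := x) (z := x) (κ := r) (IsSelfAdjoint.of_nonneg hx) hx hr.le le_rfl hle
    rw [mul_smul_comm, hxw, smul_zero, zero_mul, norm_zero] at t
    have := one_le_norm_cube (IsSelfAdjoint.of_nonneg hx) hxn
    nlinarith
  · intro hle
    rw [sub_nonneg] at hle
    have t := norm_test (y := w) (z := w) (κ := s) (IsSelfAdjoint.of_nonneg hw) hw hs.le le_rfl hle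
    have e : w * (r • x) * w = 0 := by
      rw [mul_smul_comm, smul_mul_assoc, mul_assoc, hxw, mul_zero, smul_zero]
    rw [e, norm_zero] at t
    have := one_le_norm_cube (IsSelfAdjoint.of_nonneg hw) hwn
    nlinarith

end

/-- `min 1 (s₊ / κ)` -/
noncomputable def cp (κ : ℝ) : ℝ → ℝ := fun s => min 1 (max s 0 / κ)

/-- `min 1 (s₋ / κ)` -/
noncomputable def cm (κ : ℝ) : ℝ → ℝ := fun s => min 1 (max (-s) 0 / κ)

theorem cp_cont (κ : ℝ) : Continuous (cp κ) := by unfold cp; fun_prop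

theorem cm_cont (κ : ℝ) : Continuous (cm κ) := by unfold cm; fun_prop

theorem cp_zero (κ : ℝ) : cp κ 0 = 0 := by simp [cp]

theorem cm_zero (κ : ℝ) : cm κ 0 = 0 := by simp [cm]

theorem cp_nonneg {κ : ℝ} (hκ : 0 < κ) (s : ℝ) : 0 ≤ cp κ s :=
  le_min zero_le_one (div_nonneg (le_max_right _ _) hκ.le)

theorem cm_nonneg {κ : ℝ} (hκ : 0 < κ) (s : ℝ) : 0 ≤ cm κ s :=
  le_min zero_le_one (div_nonneg (le_max_right _ _) hκ.le)

theorem cp_mul_cm {κ : ℝ} (s : ℝ) : cp κ s * cm κ s = 0 := by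
  rcases le_total s 0 with h | h
  · have : cp κ s = 0 := by unfold cp; rw [max_eq_right h]; simp
    rw [this, zero_mul]
  · have : cm κ s = 0 := by unfold cm; rw [max_eq_right (by linarith)]; simp
    rw [this, mul_zero]

section

variable {B : Type u} [NonUnitalCStarAlgebra B] [PartialOrder B] [StarOrderedRing B]

theorem norm_cp {h : B} (hh : IsSelfAdjoint h) {κ : ℝ} (hκ : 0 < κ)
    (hn : κ < ‖cfcₙ (fun s : ℝ => max s 0) h‖) : ‖cfcₙ (cp κ) h‖ = 1 := by
  refine le_antisymm (norm_cfcₙ_le fun s _ => ?_) ?_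
  · rw [Real.norm_of_nonneg (cp_nonneg hκ s)]; exact min_le_left _ _
  · by_contra hlt
    push Not at hlt
    refine absurd hn (not_lt.2 (norm_cfcₙ_le fun s hs => ?_))
    have h3 := norm_apply_le_norm_cfcₙ (cp κ) h hs (cp_cont κ).continuousOn (cp_zero κ) hh
    rw [Real.norm_of_nonneg (le_max_right _ _)]
    by_contra h4
    push Not at h4
    have h5 : cp κ s = 1 := by
      unfold cp
      rw [min_eq_left]
      rw [le_div_iff₀ hκ]
      linarith
    rw [h5, norm_one] at h3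
    exact absurd (lt_of_le_of_lt h3 hlt) (lt_irrefl _)

theorem norm_cm {h : B} (hh : IsSelfAdjoint h) {κ : ℝ} (hκ : 0 < κ)
    (hn : κ < ‖cfcₙ (fun s : ℝ => max (-s) 0) h‖) : ‖cfcₙ (cm κ) h‖ = 1 := by
  refine le_antisymm (norm_cfcₙ_le fun s _ => ?_) ?_
  · rw [Real.norm_of_nonneg (cm_nonneg hκ s)]; exact min_le_left _ _
  · by_contra hlt
    push Not at hlt
    refine absurd hn (not_lt.2 (norm_cfcₙ_le fun s hs => ?_))
    have h3 := norm_apply_le_norm_cfcₙ (cm κ) h hs (cm_cont κ).continuousOn (cm_zero κ) hh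
    rw [Real.norm_of_nonneg (le_max_right _ _)]
    by_contra h4
    push Not at h4
    have h5 : cm κ s = 1 := by
      unfold cm
      rw [min_eq_left]
      rw [le_div_iff₀ hκ]
      linarith
    rw [h5, norm_one] at h3
    exact absurd (lt_of_le_of_lt h3 hlt) (lt_irrefl _)

theorem good_iff {h : B} (hh : IsSelfAdjoint h) (hg : ¬ h ≤ 0 ∧ ¬ 0 ≤ h) :
    0 < ‖cfcₙ (fun s : ℝ => max s 0) h‖ ∧ 0 < ‖cfcₙ (fun s : ℝ => max (-s) 0) h‖ := by
  have h1 : cfcₙ (fun s : ℝ => max s 0) h - cfcₙ (fun s : ℝ => max (-s) 0) h = h := by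
    rw [← cfcₙ_sub (fun s : ℝ => max s 0) (fun s : ℝ => max (-s) 0) h (by fun_prop) (by simp)
      (by fun_prop) (by simp)]
    conv_rhs => rw [← cfcₙ_id' ℝ h hh]
    congr 1
    funext s
    rcases le_total s 0 with h | h
    · rw [max_eq_right h, max_eq_left (by linarith)]; ring
    · rw [max_eq_left h, max_eq_right (by linarith)]; ring
  constructor
  · rw [norm_pos_iff]
    intro h0
    refine hg.1 ?_
    rw [← h1, h0, zero_sub, neg_nonpos]
    exact cfcₙ_nonneg fun s _ => le_max_right _ _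
  · rw [norm_pos_iff]
    intro h0
    refine hg.2 ?_
    rw [← h1, h0, sub_zero]
    exact cfcₙ_nonneg fun s _ => le_max_right _ _

end

/-- the function which is `1` on `[1, 2]` and `0` off `(1/2, 5/2)` -/
noncomputable def rr (s : ℝ) : ℝ := max 0 (min 1 (min (2 * s - 1) (5 - 2 * s)))

section

variable {X : Type v} [TopologicalSpace X] [T2Space X] [LocallyCompactSpace X] {B : X → Type u}
  [∀ t, NonUnitalCStarAlgebra (B t)] [∀ t, PartialOrder (B t)] [∀ t, StarOrderedRing (B t)]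
  {A : Type u} [NonUnitalCStarAlgebra A] [PartialOrder A] [StarOrderedRing A]
  {π : ∀ t, A →⋆ₙₐ[ℂ] B t}

omit [T2Space X] [LocallyCompactSpace X] in
/-- normalization of a good element on a neighbourhood of a compact set -/
theorem normalize_good (hπ : IsContFieldMap π) {h : A} (hh : IsSelfAdjoint h) {S : Set X}
    (hS : IsCompact S) (hg : ∀ t ∈ S, Good π h t) {a : A} (ha : h ∈ her a) :
    ∃ (x w : A) (S' : Set X), IsOpen S' ∧ S ⊆ S' ∧ 0 ≤ x ∧ 0 ≤ w ∧ x * w = 0 ∧ x ∈ her a ∧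
      w ∈ her a ∧ ∀ t ∈ S', ‖π t x‖ = 1 ∧ ‖π t w‖ = 1 := by
  set p : A := cfcₙ (fun s : ℝ => max s 0) h with hp
  set m : A := cfcₙ (fun s : ℝ => max (-s) 0) h with hm
  have hpt : ∀ t, π t p = cfcₙ (fun s : ℝ => max s 0) (π t h) := fun t =>
    map_cfcn (π t) (by fun_prop) (by simp) hh
  have hmt : ∀ t, π t m = cfcₙ (fun s : ℝ => max (-s) 0) (π t h) := fun t =>
    map_cfcn (π t) (by fun_prop) (by simp) hh
  have hpc : Continuous fun t => ‖π t p‖ := hπ.2.2.2.2 p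
  have hmc : Continuous fun t => ‖π t m‖ := hπ.2.2.2.2 m
  obtain ⟨κ, hκ, hκS⟩ : ∃ κ : ℝ, 0 < κ ∧ ∀ t ∈ S, κ < ‖π t p‖ ∧ κ < ‖π t m‖ := by
    rcases S.eq_empty_or_nonempty with hE | hE
    · exact ⟨1, one_pos, fun t ht => by rw [hE] at ht; exact absurd ht (Set.notMem_empty t)⟩
    · obtain ⟨t1, ht1, hmin1⟩ := hS.exists_isMinOn hE (hpc.min hmc).continuousOn
      have h1 : 0 < min ‖π t1 p‖ ‖π t1 m‖ := by
        obtain ⟨g1, g2⟩ := good_iff (hh.map (π t1)) (hg t1 ht1)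
        rw [hpt, hmt]
        exact lt_min g1 g2
      refine ⟨min ‖π t1 p‖ ‖π t1 m‖ / 2, half_pos h1, fun t ht => ?_⟩
      have h2 : min ‖π t1 p‖ ‖π t1 m‖ ≤ min ‖π t p‖ ‖π t m‖ := hmin1 ht
      have h3 := min_le_left ‖π t p‖ ‖π t m‖
      have h4 := min_le_right ‖π t p‖ ‖π t m‖
      constructor <;> linarith
  refine ⟨cfcₙ (cp κ) h, cfcₙ (cm κ) h, {t | κ < ‖π t p‖ ∧ κ < ‖π t m‖}, ?_, fun t ht => hκS t ht,
    cfcₙ_nonneg fun s _ => cp_nonneg hκ s, cfcₙ_nonneg fun s _ => cm_nonneg hκ s, ?_,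
    her_cfc hh ha (cp_cont κ) (cp_zero κ), her_cfc hh ha (cm_cont κ) (cm_zero κ), fun t ht => ?_⟩
  · exact (isOpen_lt continuous_const hpc).inter (isOpen_lt continuous_const hmc)
  · rw [← cfcₙ_mul (cp κ) (cm κ) h (cp_cont κ).continuousOn (cp_zero κ) (cm_cont κ).continuousOn
      (cm_zero κ)]
    have : (fun s => cp κ s * cm κ s) = fun _ => (0 : ℝ) := funext fun s => cp_mul_cm s
    rw [this, cfcₙ_const_zero]
  · obtain ⟨h1, h2⟩ := ht
    rw [hpt] at h1
    rw [hmt] at h2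
    rw [map_cfcn (π t) (cp_cont κ) (cp_zero κ) hh, map_cfcn (π t) (cm_cont κ) (cm_zero κ) hh]
    exact ⟨norm_cp (hh.map (π t)) hκ h1, norm_cm (hh.map (π t)) hκ h2⟩

end

theorem rr_nonneg (s : ℝ) : 0 ≤ rr s := le_max_left _ _

theorem rr_le_one (s : ℝ) : rr s ≤ 1 := max_le zero_le_one (min_le_left _ _)

theorem rr_cont : Continuous rr := by unfold rr; fun_prop

theorem rr_low {s : ℝ} (h : s ≤ 1 / 2) : rr s = 0 := by
  unfold rr
  refine max_eq_left ((min_le_right _ _).trans ((min_le_left _ _).trans ?_))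
  linarith

theorem rr_high {s : ℝ} (h : 5 / 2 ≤ s) : rr s = 0 := by
  unfold rr
  refine max_eq_left ((min_le_right _ _).trans ((min_le_right _ _).trans ?_))
  linarith

theorem rr_pos {s : ℝ} (h : 1 / 2 < s) (h' : s < 5 / 2) : 0 < rr s := by
  unfold rr
  refine lt_max_of_lt_right (lt_min zero_lt_one (lt_min ?_ ?_)) <;> linarith

theorem rr_one {s : ℝ} (h : 1 ≤ s) (h' : s ≤ 2) : rr s = 1 := by
  unfold rr
  rw [min_eq_left (le_min (by linarith) (by linarith)), max_eq_right zero_le_one]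

section

variable {X : Type v} [TopologicalSpace X] [T2Space X] [LocallyCompactSpace X] {B : X → Type u}
  [∀ t, NonUnitalCStarAlgebra (B t)] [∀ t, PartialOrder (B t)] [∀ t, StarOrderedRing (B t)]
  {A : Type u} [NonUnitalCStarAlgebra A] [PartialOrder A] [StarOrderedRing A]
  {π : ∀ t, A →⋆ₙₐ[ℂ] B t}

omit [T2Space X] [LocallyCompactSpace X] [∀ t, PartialOrder (B t)] [∀ t, StarOrderedRing (B t)]
  [PartialOrder A] [StarOrderedRing A] in
theorem IsContFieldMap.sa (hπ : IsContFieldMap π) {f : X → ℝ} {e b : A} (he : IsSelfAdjoint e)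
    (hb : ∀ t, π t b = (f t) • π t e) : IsSelfAdjoint b := by
  refine hπ.ext fun t => ?_
  rw [map_star, hb, star_smul, star_trivial, (he.map (π t)).star_eq]

omit [PartialOrder A] [StarOrderedRing A] in
theorem map_nonneg_of {C : Type u} [NonUnitalCStarAlgebra C] [PartialOrder C]
    [StarOrderedRing C] [PartialOrder A] [StarOrderedRing A] (φ : A →⋆ₙₐ[ℂ] C) {a : A}
    (ha : 0 ≤ a) : 0 ≤ φ a := by
  have h1 : a = star (CFC.sqrt a) * CFC.sqrt a := by
    rw [(IsSelfAdjoint.of_nonneg (CFC.sqrt_nonneg a)).star_eq, CFC.sqrt_mul_sqrt_self a ha]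
  rw [h1, map_mul, map_star]
  exact star_mul_self_nonneg _

/-- One gluing step. -/
theorem glue_step (hπ : IsContFieldMap π) (hX : ∀ K : Set X, IsCompact K → WeaklyInfDim K)
    {a : A} {P : ℕ → A} (hPs : ∀ j, IsSelfAdjoint (P j)) (hPa : ∀ j, P j ∈ her a)
    {V : Set X} (hV : IsOpen V) (hPV : ProjOn π P V) {S K : Set X} (hS : IsCompact S)
    (hK : IsCompact K) (hKV : K ⊆ V) {h : A} (hh : IsSelfAdjoint h) (hha : h ∈ her a)
    (haa : star a = a) (hg : ∀ t ∈ S, Good π h t) :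
    ∃ h' : A, IsSelfAdjoint h' ∧ h' ∈ her a ∧ ∀ t ∈ S ∪ K, Good π h' t := by
  obtain ⟨x, w, S', hS'o, hSS', hx0, hw0, hxw, hxa, hwa, hn⟩ := normalize_good hπ hh hS hg hha
  have hws : IsSelfAdjoint w := IsSelfAdjoint.of_nonneg hw0
  have hxs : IsSelfAdjoint x := IsSelfAdjoint.of_nonneg hx0
  -- the function `sigma = 3 f`
  obtain ⟨f, hf1, hf0, hf01⟩ : ∃ f : C(X, ℝ), (∀ t ∈ K \ S', f t = 1) ∧ (∀ t, t ∉ V → f t = 0) ∧
      ∀ t, 0 ≤ f t ∧ f t ≤ 1 := by
    obtain ⟨f, h1, h2, -, h4⟩ := exists_continuous_one_zero_of_isCompact (hK.diff hS'o)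
      hV.isClosed_compl (Set.disjoint_left.2 fun t ht hc => hc (hKV ht.1))
    exact ⟨f, fun t ht => h1 ht, fun t ht => h2 ht, fun t => h4 t⟩
  have hdS : ∀ t ∈ S ∪ K, 3 * f t < 3 → t ∈ S' := by
    rintro t (ht | ht) h3
    · exact hSS' ht
    · by_contra hc
      rw [hf1 t ⟨ht, hc⟩] at h3
      norm_num at h3
  have hdV : ∀ t, 0 < 3 * f t → t ∈ V := by
    intro t ht
    by_contra hc
    rw [hf0 t hc] at ht
    norm_num at ht
  set K₀ : Set X := (S ∪ K) ∩ {t | 1 / 2 ≤ 3 * f t ∧ 3 * f t ≤ 5 / 2} with hK₀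
  have hK₀c : IsCompact K₀ := by
    have h1 : Continuous fun t => 3 * f t := by fun_prop
    have h2 : IsClosed ({t | 1 / 2 ≤ 3 * f t} ∩ {t | 3 * f t ≤ 5 / 2}) :=
      (isClosed_le continuous_const h1).inter (isClosed_le h1 continuous_const)
    exact (hS.union hK).inter_right h2
  obtain ⟨N, c, b, hc0, hb0, hsum, hcb, hKK⟩ := exists_weights hK₀c (hX K₀ hK₀c)
    (fun k => {t | 1 - bb k < ‖π t (GG w P k)‖}) (fun k => {t | ‖π t (GG w P k)‖ < 1 - bb k / 2})
    (fun k => isOpen_lt continuous_const (hπ.2.2.2.2 _))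
    (fun k => isOpen_lt (hπ.2.2.2.2 _) continuous_const) (fun k t _ => by
      rcases lt_or_ge (1 - bb k) ‖π t (GG w P k)‖ with h1 | h1
      · exact Or.inl h1
      · right
        show ‖π t (GG w P k)‖ < 1 - bb k / 2
        have := bb_pos k
        linarith)
  have hα0 : ∀ t, 0 ≤ ∑ k ∈ range N, c k t := fun t => sum_nonneg fun k _ => hc0 k t
  have hβ0 : ∀ t, 0 ≤ ∑ k ∈ range N, b k t := fun t => sum_nonneg fun k _ => hb0 k t
  have hαβ : ∀ t, ∑ k ∈ range N, c k t + ∑ k ∈ range N, b k t ≤ 1 := fun t => by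
    rw [← sum_add_distrib]; exact hsum t
  have hcN : ∀ k < N, ∀ t, c k t ≤ 1 := fun k hk t => by
    have := single_le_sum (f := fun k => c k t) (fun j _ => hc0 j t) (mem_range.2 hk)
    have h1 := hβ0 t
    have h2 := hαβ t
    linarith
  have hbN : ∀ k < N, ∀ t, b k t ≤ 1 := fun k hk t => by
    have := single_le_sum (f := fun k => b k t) (fun j _ => hb0 j t) (mem_range.2 hk)
    have h1 := hα0 t
    have h2 := hαβ t
    linarith
  -- the coefficient functions
  let fu : C(X, ℝ) := ⟨fun t => max 0 (1 + ∑ k ∈ range N, b k t - 3 * f t), by fun_prop⟩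
  let fv : C(X, ℝ) := ⟨fun t => max 0 (3 * f t - 1 - ∑ k ∈ range N, c k t), by fun_prop⟩
  let fu' : C(X, ℝ) := ⟨fun t => max 0 (1 + ∑ k ∈ range N, c k t - 3 * f t), by fun_prop⟩
  let fv' : C(X, ℝ) := ⟨fun t => max 0 (3 * f t - 1 - ∑ k ∈ range N, b k t), by fun_prop⟩
  let fc : ℕ → C(X, ℝ) := fun k => ⟨fun t => rr (3 * f t) * c k t, by
    have := rr_cont; fun_prop⟩
  let fb : ℕ → C(X, ℝ) := fun k => ⟨fun t => rr (3 * f t) * b k t, by
    have := rr_cont; fun_prop⟩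
  have bu : ∀ t, 0 ≤ fu t ∧ fu t ≤ 3 := fun t => ⟨le_max_left _ _, max_le (by norm_num) (by
    have h1 := hα0 t
    have h2 := hαβ t
    have h3 := (hf01 t).1
    linarith)⟩
  have bv : ∀ t, 0 ≤ fv t ∧ fv t ≤ 3 := fun t => ⟨le_max_left _ _, max_le (by norm_num) (by
    have h1 := hα0 t
    have h3 := (hf01 t).2
    linarith)⟩
  have bu' : ∀ t, 0 ≤ fu' t ∧ fu' t ≤ 3 := fun t => ⟨le_max_left _ _, max_le (by norm_num) (by
    have h1 := hβ0 t
    have h2 := hαβ t
    have h3 := (hf01 t).1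
    linarith)⟩
  have bv' : ∀ t, 0 ≤ fv' t ∧ fv' t ≤ 3 := fun t => ⟨le_max_left _ _, max_le (by norm_num) (by
    have h1 := hβ0 t
    have h3 := (hf01 t).2
    linarith)⟩
  have bc : ∀ k < N, ∀ t, 0 ≤ fc k t ∧ fc k t ≤ 3 := fun k hk t =>
    ⟨mul_nonneg (rr_nonneg _) (hc0 k t), (mul_le_one₀ (rr_le_one _) (hc0 k t) (hcN k hk t)).trans
      (by norm_num)⟩
  have bb' : ∀ k < N, ∀ t, 0 ≤ fb k t ∧ fb k t ≤ 3 := fun k hk t =>
    ⟨mul_nonneg (rr_nonneg _) (hb0 k t), (mul_le_one₀ (rr_le_one _) (hb0 k t) (hbN k hk t)).trans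
      (by norm_num)⟩
  have h3 : (0 : ℝ) < 3 := by norm_num
  obtain ⟨X1, hX1⟩ := hπ.mulC fu h3 bu x
  obtain ⟨X2, hX2⟩ := hπ.mulC fv h3 bv (P 1)
  obtain ⟨W1, hW1⟩ := hπ.mulC fu' h3 bu' (FF w)
  obtain ⟨W2, hW2⟩ := hπ.mulC fv' h3 bv' (P 0)
  have hYex : ∀ k, ∃ y : A, y ∈ her a ∧ IsSelfAdjoint y ∧
      (k < N → ∀ t, π t y = fc k t • π t (xi w P k * xi w P k)) := by
    intro k
    by_cases hk : k < N
    · obtain ⟨y, hy⟩ := hπ.mulC (fc k) h3 (bc k hk) (xi w P k * xi w P k)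
      refine ⟨y, hπ.mul_her (fc k) h3 (bc k hk) (her_mul (xi_her hws hwa hPs hPa k)
        (xi_her hws hwa hPs hPa k)) hy, hπ.sa ?_ hy, fun _ => hy⟩
      have := IsSelfAdjoint.star_mul_self (xi w P k)
      rwa [(xi_sa w P k).star_eq] at this
    · exact ⟨0, (her a).zero_mem, IsSelfAdjoint.zero A, fun h => absurd h hk⟩
  choose Y hYa hYs hY using hYex
  have hEex : ∀ k, ∃ y : A, y ∈ her a ∧ IsSelfAdjoint y ∧
      (k < N → ∀ t, π t y = fb k t • π t (ee w P k)) := by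
    intro k
    by_cases hk : k < N
    · obtain ⟨y, hy⟩ := hπ.mulC (fb k) h3 (bb' k hk) (ee w P k)
      exact ⟨y, hπ.mul_her (fb k) h3 (bb' k hk) (ee_her haa hws hwa hPs hPa k) hy,
        hπ.sa (cfcₙ_predicate (p := IsSelfAdjoint) _ _) hy, fun _ => hy⟩
    · exact ⟨0, (her a).zero_mem, IsSelfAdjoint.zero A, fun h => absurd h hk⟩
  choose E hEa hEs hE using hEex
  refine ⟨(X1 + ∑ k ∈ range N, Y k + X2) - (W1 + ∑ k ∈ range N, E k + W2), ?_, ?_, ?_⟩
  · have hFs : IsSelfAdjoint (FF w) := cfcₙ_predicate (p := IsSelfAdjoint) _ _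
    have s1 : IsSelfAdjoint (∑ k ∈ range N, Y k) := by
      rw [IsSelfAdjoint, star_sum]; exact sum_congr rfl fun k _ => (hYs k).star_eq
    have s2 : IsSelfAdjoint (∑ k ∈ range N, E k) := by
      rw [IsSelfAdjoint, star_sum]; exact sum_congr rfl fun k _ => (hEs k).star_eq
    exact (((hπ.sa hxs hX1).add s1).add (hπ.sa (hPs 1) hX2)).sub
      (((hπ.sa hFs hW1).add s2).add (hπ.sa (hPs 0) hW2))
  · refine (her a).sub_mem ((her a).add_mem ((her a).add_mem ?_ ?_) ?_)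
      ((her a).add_mem ((her a).add_mem ?_ ?_) ?_)
    · exact hπ.mul_her fu h3 bu hxa hX1
    · exact (her a).sum_mem fun k _ => hYa k
    · exact hπ.mul_her fv h3 bv (hPa 1) hX2
    · exact hπ.mul_her fu' h3 bu' (FF_her hws hwa) hW1
    · exact (her a).sum_mem fun k _ => hEa k
    · exact hπ.mul_her fv' h3 bv' (hPa 0) hW2
  intro t ht
  set s : ℝ := 3 * f t with hs
  set α : ℝ := ∑ k ∈ range N, c k t with hα
  set β : ℝ := ∑ k ∈ range N, b k t with hβ
  set Q : ℕ → B t := fun j => π t (P j) with hQ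
  have hval : π t ((X1 + ∑ k ∈ range N, Y k + X2) - (W1 + ∑ k ∈ range N, E k + W2)) =
      (max 0 (1 + β - s) • π t x +
        rr s • ∑ k ∈ range N, c k t • (xi (π t w) Q k * xi (π t w) Q k) +
        max 0 (s - 1 - α) • Q 1) -
      (max 0 (1 + α - s) • FF (π t w) + rr s • ∑ k ∈ range N, b k t • ee (π t w) Q k +
        max 0 (s - 1 - β) • Q 0) := by
    rw [map_sub, map_add, map_add, map_add, map_add, map_sum, map_sum, hX1, hX2, hW1, hW2,
      map_FF (π t) hws, smul_sum, smul_sum]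
    congr 1
    · congr 1
      congr 1
      refine sum_congr rfl fun k hk => ?_
      rw [hY k (mem_range.1 hk), map_mul, map_xi (π t) hws hPs, smul_smul]
      rfl
    · congr 1
      congr 1
      refine sum_congr rfl fun k hk => ?_
      rw [hE k (mem_range.1 hk), map_ee (π t) hws hPs, smul_smul]
      rfl
  have hx0' : 0 ≤ π t x := map_nonneg_of (π t) hx0
  have hw0' : 0 ≤ π t w := map_nonneg_of (π t) hw0
  have hxw' : π t x * π t w = 0 := by rw [← map_mul, hxw, map_zero]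
  have hα0' := hα0 t
  have hβ0' := hβ0 t
  have hαβ' := hαβ t
  rw [← hα] at hα0' hαβ'
  rw [← hβ] at hβ0' hαβ'
  show ¬ π t _ ≤ 0 ∧ ¬ 0 ≤ π t _
  rw [hval]
  rcases le_or_gt s (1 / 2) with hs1 | hs1
  · -- old pair
    have htS : t ∈ S' := hdS t ht (by rw [← hs]; linarith)
    obtain ⟨n1, n2⟩ := hn t htS
    have hxF : π t x * FF (π t w) = 0 := mul_her hxw'
      (her_cfc (IsSelfAdjoint.of_nonneg hw0') (self_mem_her (IsSelfAdjoint.of_nonneg hw0'))
        fF_cont fF_zero)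
    rw [rr_low hs1, zero_smul, zero_smul, max_eq_left (by linarith : s - 1 - α ≤ 0),
      max_eq_left (by linarith : s - 1 - β ≤ 0), zero_smul, zero_smul, add_zero, add_zero,
      add_zero, add_zero, max_eq_right (by linarith : 0 ≤ 1 + β - s),
      max_eq_right (by linarith : 0 ≤ 1 + α - s)]
    exact two_not_nonpos hx0' n1 (FF_nonneg _) (FF_norm hw0' n2) hxF (by linarith) (by linarith)
  have htV : t ∈ V := hdV t (by rw [← hs]; linarith)
  have hQP : Proj Q := ⟨fun j => (hPs j).map (π t), (hPV t htV).1, (hPV t htV).2⟩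
  rcases le_or_gt (5 / 2) s with hs2 | hs2
  · -- new pair
    rw [rr_high hs2, max_eq_left (by linarith : 1 + β - s ≤ 0),
      max_eq_left (by linarith : 1 + α - s ≤ 0), max_eq_right (by linarith : 0 ≤ s - 1 - α),
      max_eq_right (by linarith : 0 ≤ s - 1 - β)]
    simp only [zero_smul, zero_add]
    exact two_not_nonpos (hQP.nonneg 1) (hQP.norm 1) (hQP.nonneg 0) (hQP.norm 0)
      (by rw [hQP.mul, if_neg (by omega)]) (by linarith) (by linarith)
  -- the path
  have htS : t ∈ S' := hdS t ht (by rw [← hs]; linarith)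
  obtain ⟨n1, n2⟩ := hn t htS
  obtain ⟨k1, k2, k3⟩ := hKK t ⟨ht, by rw [← hs]; exact hs1.le, by rw [← hs]; exact hs2.le⟩
  have hC : Coef N s (rr s) α β (fun k => c k t) (fun k => b k t) qq :=
    { c0 := fun k => hc0 k t
      a0 := fun k => hb0 k t
      ca := fun k => hcb k t
      hα := hα
      hβ := hβ
      one := by rw [hα, hβ, ← sum_add_distrib]; exact k1
      ρ0 := rr_pos hs1 hs2
      ρ1 := fun h1 h2 => rr_one h1 h2
      ρle := rr_le_one s
      s0 := hs1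
      s1 := hs2
      q0 := fun k => by have := bb_pos k; unfold qq; positivity
      qanti := fun k l => qq_anti
      qsum := qq_sum N
      q1 := by unfold qq bb; norm_num }
  have hL : Letters N (fun k => c k t) (fun k => b k t) qq (π t x) (FF (π t w)) (Q 1) (Q 0)
      (xi (π t w) Q) (ee (π t w) Q) :=
    letters hQP hx0' n1 hw0' n2 hxw' (fun k _ hk => by
      have := k2 k hk
      rwa [Set.mem_setOf_eq, map_GG (π t) hws] at this) (fun k _ hk => by
      have := k3 k hk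
      rwa [Set.mem_setOf_eq, map_GG (π t) hws] at this)
  exact ⟨not_nonpos hC hL, not_nonneg hC hL⟩

end

theorem aStmt : AStmt.{u, v} := by
  intro X _ _ _ B _ _ _ A _ _ _ π hπ hX a ha P hPs hPa V hV hPV S K hS hK hKV h hh hha hg
  exact glue_step hπ hX hPs hPa hV hPV hS hK hKV hh hha (IsSelfAdjoint.of_nonneg ha).star_eq hg

end Vale.Agent.P133.W634
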