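import Vale.Agent.P133.W634.Haus
import Vale.Agent.P133.W634.H665.Spec

/-!
P133 (helper779): C*-algebras with Hausdorff primitive ideal space, in terms of `IsContField`.
-/

open scoped ComplexOrder

namespace Vale.Agent.P133.W634

open Vale.Agent.P133 Vale.Agent.P133F Vale.Agent.P133.Statement Vale.Agent.P133.H832
  Vale.Agent.P133.H681 Vale.Agent.P133.H330

universe u

/-- **Hausdorff primitive ideal spaces.** -/
theorem field_of_openSets {X : Type u} [TopologicalSpace X] [T2Space X] {A : Type u}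
    [NonUnitalCStarAlgebra A] [PartialOrder A] [StarOrderedRing A] (hX : OpenSets X A) :
    LocallyCompactSpace X ∧ ∃ (B : X → Type u) (_ : ∀ t, NonUnitalCStarAlgebra (B t))
      (_ : ∀ t, PartialOrder (B t)) (_ : ∀ t, StarOrderedRing (B t)),
      IsContField B A ∧ ∀ t, IsSimpleC (B t) := by
  obtain ⟨h0, B, i1, i2, i3, π, h1, h2, h3, h4, h5, h6⟩ := exists_field_of_hausdorff hX
  exact ⟨h0, B, i1, i2, i3, ⟨π, h1, h2, h3, h4, h5⟩, h6⟩

end Vale.Agent.P133.W634
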