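import Vale.Agent.P133.W634.P
import Vale.Agent.P133.W634.H665.Spec

/-!
P133 (helper695): block P in the form of the specification.
-/

open scoped ComplexOrder

namespace Vale.Agent.P133.W634

universe u v

theorem pStmt : PStmt.{u, v} := by
  intro X _ _ _ B _ _ _ A _ _ _ π hπ a ha t₀ h0 hs hPI
  obtain ⟨P, V, hV, ht, h1, h2, h3⟩ :=
    H695.local_proj hπ.2.2.2.2 (hπ.1 t₀) hs hPI ha h0
  exact ⟨P, h1, h2, V, hV, ht, fun t htV =>
    ⟨fun i j => by rw [← map_mul]; exact (h3 t htV).1 i j, (h3 t htV).2⟩⟩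

end Vale.Agent.P133.W634
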