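import Mathlib

/-!
P133 (helper634): the gluing of nowhere scalar elements in one fibre.
-/

open scoped ComplexOrder
open Finset

namespace Vale.Agent.P133.W634

universe u

section

variable {B : Type u} [NonUnitalCStarAlgebra B]

theorem one_le_norm_cube {y : B} (hy : IsSelfAdjoint y) (h1 : ‖y‖ = 1) : 1 ≤ ‖y * y * y‖ := by
  have e1 : ‖y * y‖ = 1 := by
    have := CStarRing.norm_star_mul_self (x := y)
    rw [hy.star_eq, h1, mul_one] at this
    exact this
  have e2 : ‖(y * y) * (y * y)‖ = 1 := by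
    have := CStarRing.norm_star_mul_self (x := y * y)
    rw [star_mul, hy.star_eq, e1, mul_one] at this
    exact this
  have e3 : (y * y) * (y * y) = (y * y * y) * y := by simp only [mul_assoc]
  have := norm_mul_le (y * y * y) y
  rw [← e3, e2, h1, mul_one] at this
  exact this

theorem norm_four {y : B} (hy : IsSelfAdjoint y) (h1 : ‖y‖ = 1) : 1 ≤ ‖y * (y * y) * y‖ := by
  have e1 : ‖y * y‖ = 1 := by
    have := CStarRing.norm_star_mul_self (x := y)
    rw [hy.star_eq, h1, mul_one] at this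
    exact this
  have e2 : ‖(y * y) * (y * y)‖ = 1 := by
    have := CStarRing.norm_star_mul_self (x := y * y)
    rw [star_mul, hy.star_eq, e1, mul_one] at this
    exact this
  have e3 : (y * y) * (y * y) = y * (y * y) * y := by simp only [mul_assoc]
  rw [← e3, e2]

variable [PartialOrder B] [StarOrderedRing B]

theorem norm_test {x w z y : B} {κ : ℝ} (hy : IsSelfAdjoint y) (hz : 0 ≤ z) (hκ : 0 ≤ κ)
    (hx : κ • z ≤ x) (hle : x ≤ w) : κ * ‖y * z * y‖ ≤ ‖y * w * y‖ := by
  have h1 : κ • z ≤ w := hx.trans hle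
  have h2 := star_left_conjugate_le_conjugate h1 y
  rw [hy.star_eq] at h2
  have h3 : 0 ≤ y * (κ • z) * y := by
    have := star_left_conjugate_nonneg (smul_nonneg hκ hz) y
    rwa [hy.star_eq] at this
  have h4 := CStarAlgebra.norm_le_norm_of_nonneg_of_le h3 h2
  rw [mul_smul_comm, smul_mul_assoc, norm_smul, Real.norm_of_nonneg hκ] at h4
  exact h4

/-- the coefficients -/
structure Coef (N : ℕ) (s ρ α β : ℝ) (c a q : ℕ → ℝ) : Prop where
  c0 : ∀ k, 0 ≤ c k
  a0 : ∀ k, 0 ≤ a k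
  ca : ∀ k, c k * a k = 0
  hα : α = ∑ k ∈ range N, c k
  hβ : β = ∑ k ∈ range N, a k
  one : α + β = 1
  ρ0 : 0 < ρ
  ρ1 : 1 ≤ s → s ≤ 2 → ρ = 1
  ρle : ρ ≤ 1
  s0 : 1 / 2 < s
  s1 : s < 5 / 2
  q0 : ∀ k, 0 ≤ q k
  qanti : ∀ k l, k ≤ l → q l ≤ q k
  qsum : ∑ k ∈ range N, q k ≤ 1 / 25
  q1 : q 0 ≤ 1 / 50

/-- the letters -/
structure Letters (N : ℕ) (c a q : ℕ → ℝ) (x₁ F T₂ T₃ : B) (xi e : ℕ → B) : Prop where
  x0 : 0 ≤ x₁
  xn : ‖x₁‖ = 1
  F0 : 0 ≤ F
  Fn : ‖F‖ = 1
  T20 : 0 ≤ T₂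
  T2n : ‖T₂‖ = 1
  T30 : 0 ≤ T₃
  T3n : ‖T₃‖ = 1
  xi0 : ∀ k, IsSelfAdjoint (xi k)
  xin : ∀ k < N, 0 < c k → ‖xi k‖ = 1
  e0 : ∀ k, 0 ≤ e k
  en : ∀ k < N, 0 < a k → ‖e k‖ = 1
  xF : x₁ * F = 0
  xe : ∀ k, x₁ * e k = 0
  TT : T₂ * T₃ = 0
  Te : ∀ k < N, 0 < a k → T₂ * e k = 0
  xiT : ∀ k, xi k * T₃ = 0
  xiF : ∀ k < N, 0 < c k → ‖xi k * F * xi k‖ ≤ q k
  Fxi : ∀ k < N, 0 < c k → ‖F * (xi k * xi k) * F‖ ≤ q k
  xie : ∀ k < N, ∀ l < N, 0 < c k → 0 < a l → k < l → xi k * e l = 0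
  xiexi : ∀ k < N, ∀ l < N, 0 < c k → 0 < a l → l < k → ‖xi k * e l * xi k‖ ≤ q k
  exie : ∀ k < N, ∀ l < N, 0 < c k → 0 < a l → l < k → ‖e l * (xi k * xi k) * e l‖ ≤ q k

theorem exists_big {N : ℕ} {c q : ℕ → ℝ} {m : ℝ} (h : m * ∑ k ∈ range N, q k < ∑ k ∈ range N, c k) :
    ∃ k < N, m * q k < c k := by
  by_contra hc
  push Not at hc
  have : ∑ k ∈ range N, c k ≤ m * ∑ k ∈ range N, q k := by
    rw [mul_sum]
    exact sum_le_sum fun k hk => hc k (mem_range.1 hk)
  linarith

variable {N : ℕ} {s ρ α β : ℝ} {c a q : ℕ → ℝ} {x₁ F T₂ T₃ : B} {xi e : ℕ → B}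

theorem sum_xi_nonneg (hC : Coef N s ρ α β c a q) (hL : Letters N c a q x₁ F T₂ T₃ xi e) :
    0 ≤ ∑ k ∈ range N, c k • (xi k * xi k) :=
  sum_nonneg fun k _ => smul_nonneg (hC.c0 k) (by
    have := star_mul_self_nonneg (xi k)
    rwa [(hL.xi0 k).star_eq] at this)

theorem sum_e_nonneg (hC : Coef N s ρ α β c a q) (hL : Letters N c a q x₁ F T₂ T₃ xi e) :
    0 ≤ ∑ k ∈ range N, a k • e k :=
  sum_nonneg fun k _ => smul_nonneg (hC.a0 k) (hL.e0 k)

theorem not_nonpos (hC : Coef N s ρ α β c a q) (hL : Letters N c a q x₁ F T₂ T₃ xi e) :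
    ¬ (max 0 (1 + β - s) • x₁ + ρ • ∑ k ∈ range N, c k • (xi k * xi k) +
        max 0 (s - 1 - α) • T₂) -
      (max 0 (1 + α - s) • F + ρ • ∑ k ∈ range N, a k • e k + max 0 (s - 1 - β) • T₃) ≤ 0 := by
  intro hle
  rw [sub_nonpos] at hle
  have hX := sum_xi_nonneg hC hL
  have hα0 : 0 ≤ α := by rw [hC.hα]; exact sum_nonneg fun k _ => hC.c0 k
  have hβ0 : 0 ≤ β := by rw [hC.hβ]; exact sum_nonneg fun k _ => hC.a0 k
  have hone := hC.one
  have hρ := hC.ρ0
  have n1 : 0 ≤ max 0 (1 + β - s) • x₁ := smul_nonneg (le_max_left _ _) hL.x0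
  have n2 : 0 ≤ ρ • ∑ k ∈ range N, c k • (xi k * xi k) := smul_nonneg hρ.le hX
  have n3 : 0 ≤ max 0 (s - 1 - α) • T₂ := smul_nonneg (le_max_left _ _) hL.T20
  rcases lt_or_ge 0 (1 + β - s) with h | h
  · -- test with `x₁`
    have hs : s - 1 - β < 0 := by linarith
    have t := norm_test (y := x₁) (z := x₁) (κ := max 0 (1 + β - s)) (IsSelfAdjoint.of_nonneg hL.x0)
      hL.x0 (le_max_left _ _) (by
        refine le_trans ?_ (le_add_of_nonneg_right n3)
        exact le_add_of_nonneg_right n2) hle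
    have e1 : x₁ * (max 0 (1 + α - s) • F + ρ • ∑ k ∈ range N, a k • e k +
        max 0 (s - 1 - β) • T₃) = 0 := by
      rw [max_eq_left hs.le, zero_smul, add_zero, mul_add, mul_smul_comm, hL.xF, smul_zero,
        zero_add, mul_smul_comm, mul_sum, sum_eq_zero (fun k _ => by
          rw [mul_smul_comm, hL.xe, smul_zero]), smul_zero]
    rw [e1, zero_mul, norm_zero, max_eq_right h.le] at t
    have := one_le_norm_cube (IsSelfAdjoint.of_nonneg hL.x0) hL.xn
    nlinarith
  rcases lt_or_ge 0 (s - 1 - α) with h' | h'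
  · -- test with `T₂`
    have hs : 1 + α - s < 0 := by linarith
    have t := norm_test (y := T₂) (z := T₂) (κ := max 0 (s - 1 - α)) (IsSelfAdjoint.of_nonneg hL.T20)
      hL.T20 (le_max_left _ _) (le_add_of_nonneg_left (add_nonneg n1 n2)) hle
    have e1 : T₂ * (max 0 (1 + α - s) • F + ρ • ∑ k ∈ range N, a k • e k +
        max 0 (s - 1 - β) • T₃) = 0 := by
      rw [max_eq_left hs.le, zero_smul, zero_add, mul_add, mul_smul_comm, mul_smul_comm, hL.TT,
        smul_zero, add_zero, mul_sum, sum_eq_zero (fun k hk => ?_), smul_zero]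
      rw [mul_smul_comm]
      rcases (hC.a0 k).eq_or_lt with h0 | h0
      · rw [← h0, zero_smul]
      · rw [hL.Te k (mem_range.1 hk) h0, smul_zero]
    rw [e1, zero_mul, norm_zero, max_eq_right h'.le] at t
    have := one_le_norm_cube (IsSelfAdjoint.of_nonneg hL.T20) hL.T2n
    nlinarith
  -- test with `xi k`
  have hα2 : 1 / 2 ≤ α := by linarith
  have hρ1 : ρ = 1 := hC.ρ1 (by linarith) (by linarith)
  obtain ⟨k, hk, hck⟩ := exists_big (N := N) (c := c) (q := q) (m := 3) (by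
    rw [← hC.hα]
    have := hC.qsum
    linarith)
  have hck0 : 0 < c k := lt_of_le_of_lt (by have := hC.q0 k; positivity) hck
  have hxs : 0 ≤ xi k * xi k := by
    have := star_mul_self_nonneg (xi k)
    rwa [(hL.xi0 k).star_eq] at this
  have t := norm_test (y := xi k) (z := xi k * xi k) (κ := c k) (hL.xi0 k) hxs (hC.c0 k) (by
    refine le_trans ?_ (le_add_of_nonneg_right n3)
    refine le_trans ?_ (le_add_of_nonneg_left n1)
    rw [hρ1, one_smul]
    exact single_le_sum (f := fun k => c k • (xi k * xi k)) (fun j _ => smul_nonneg (hC.c0 j) (by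
      have := star_mul_self_nonneg (xi j)
      rwa [(hL.xi0 j).star_eq] at this)) (mem_range.2 hk)) hle
  have h4 := norm_four (hL.xi0 k) (hL.xin k hk hck0)
  have hT : T₃ * xi k = 0 := by
    have := congrArg star (hL.xiT k)
    rwa [star_mul, star_zero, (hL.xi0 k).star_eq, (IsSelfAdjoint.of_nonneg hL.T30).star_eq] at this
  have e1 : xi k * (max 0 (1 + α - s) • F + ρ • ∑ l ∈ range N, a l • e l +
      max 0 (s - 1 - β) • T₃) * xi k = max 0 (1 + α - s) • (xi k * F * xi k) +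
        ∑ l ∈ range N, a l • (xi k * e l * xi k) := by
    rw [hρ1, one_smul, mul_add, mul_add, mul_smul_comm, mul_smul_comm, hL.xiT, smul_zero, add_zero,
      add_mul, smul_mul_assoc, mul_sum, sum_mul]
    congr 1
    exact sum_congr rfl fun l _ => by rw [mul_smul_comm, smul_mul_assoc]
  rw [e1] at t
  have b1 : ‖max 0 (1 + α - s) • (xi k * F * xi k)‖ ≤ 1 * q k := by
    rw [norm_smul, Real.norm_of_nonneg (le_max_left _ _)]
    exact mul_le_mul (max_le (by norm_num) (by linarith)) (hL.xiF k hk hck0) (norm_nonneg _)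
      (by norm_num)
  have b2 : ‖∑ l ∈ range N, a l • (xi k * e l * xi k)‖ ≤ β * q k := by
    rw [hC.hβ, sum_mul]
    refine (norm_sum_le _ _).trans (sum_le_sum fun l hl => ?_)
    rw [norm_smul, Real.norm_of_nonneg (hC.a0 l)]
    rcases (hC.a0 l).eq_or_lt with h0 | h0
    · rw [← h0, zero_mul, zero_mul]
    · refine mul_le_mul_of_nonneg_left ?_ h0.le
      rcases lt_trichotomy k l with h1 | h1 | h1
      · rw [hL.xie k hk l (mem_range.1 hl) hck0 h0 h1, zero_mul, norm_zero]
        exact hC.q0 k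
      · subst h1
        have := hC.ca k
        rcases mul_eq_zero.1 this with h2 | h2 <;> linarith
      · exact hL.xiexi k hk l (mem_range.1 hl) hck0 h0 h1
  have b3 := norm_add_le (max 0 (1 + α - s) • (xi k * F * xi k))
    (∑ l ∈ range N, a l • (xi k * e l * xi k))
  have := hC.q0 k
  nlinarith

theorem not_nonneg (hC : Coef N s ρ α β c a q) (hL : Letters N c a q x₁ F T₂ T₃ xi e) :
    ¬ 0 ≤ (max 0 (1 + β - s) • x₁ + ρ • ∑ k ∈ range N, c k • (xi k * xi k) +
        max 0 (s - 1 - α) • T₂) -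
      (max 0 (1 + α - s) • F + ρ • ∑ k ∈ range N, a k • e k + max 0 (s - 1 - β) • T₃) := by
  intro hle
  rw [sub_nonneg] at hle
  have hE := sum_e_nonneg hC hL
  have hα0 : 0 ≤ α := by rw [hC.hα]; exact sum_nonneg fun k _ => hC.c0 k
  have hβ0 : 0 ≤ β := by rw [hC.hβ]; exact sum_nonneg fun k _ => hC.a0 k
  have hone := hC.one
  have hρ := hC.ρ0
  have n1 : 0 ≤ max 0 (1 + α - s) • F := smul_nonneg (le_max_left _ _) hL.F0
  have n2 : 0 ≤ ρ • ∑ k ∈ range N, a k • e k := smul_nonneg hρ.le hE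
  have n3 : 0 ≤ max 0 (s - 1 - β) • T₃ := smul_nonneg (le_max_left _ _) hL.T30
  rcases lt_or_ge 0 (s - 1 - β) with h | h
  · -- test with `T₃`
    have hs : 1 + β - s < 0 := by linarith
    have t := norm_test (y := T₃) (z := T₃) (κ := max 0 (s - 1 - β)) (IsSelfAdjoint.of_nonneg hL.T30)
      hL.T30 (le_max_left _ _) (le_add_of_nonneg_left (add_nonneg n1 n2)) hle
    have e1 : (max 0 (1 + β - s) • x₁ + ρ • ∑ k ∈ range N, c k • (xi k * xi k) +
        max 0 (s - 1 - α) • T₂) * T₃ = 0 := by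
      rw [max_eq_left hs.le, zero_smul, zero_add, add_mul, smul_mul_assoc, smul_mul_assoc, hL.TT,
        smul_zero, add_zero, sum_mul, sum_eq_zero (fun k _ => by
          rw [smul_mul_assoc, mul_assoc, hL.xiT, mul_zero, smul_zero]), smul_zero]
    have e2 : T₃ * (max 0 (1 + β - s) • x₁ + ρ • ∑ k ∈ range N, c k • (xi k * xi k) +
        max 0 (s - 1 - α) • T₂) * T₃ = 0 := by rw [mul_assoc, e1, mul_zero]
    rw [e2, norm_zero, max_eq_right h.le] at t
    have := one_le_norm_cube (IsSelfAdjoint.of_nonneg hL.T30) hL.T3n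
    nlinarith
  rcases lt_or_ge (1 / 25) β with hb | hb
  · -- test with `e l`
    obtain ⟨l, hl, hal⟩ := exists_big (N := N) (c := a) (q := q) (m := 1) (by
      rw [← hC.hβ, one_mul]
      exact lt_of_le_of_lt hC.qsum hb)
    rw [one_mul] at hal
    have hal0 : 0 < a l := lt_of_le_of_lt (hC.q0 l) hal
    have t := norm_test (y := e l) (z := e l) (κ := ρ * a l) (IsSelfAdjoint.of_nonneg (hL.e0 l))
      (hL.e0 l) (by positivity) (by
        refine le_trans ?_ (le_add_of_nonneg_right n3)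
        refine le_trans ?_ (le_add_of_nonneg_left n1)
        rw [mul_smul]
        exact smul_le_smul_of_nonneg_left (single_le_sum (f := fun k => a k • e k)
          (fun j _ => smul_nonneg (hC.a0 j) (hL.e0 j)) (mem_range.2 hl)) hρ.le) hle
    have h4 := one_le_norm_cube (IsSelfAdjoint.of_nonneg (hL.e0 l)) (hL.en l hl hal0)
    have hel : star (e l) = e l := (IsSelfAdjoint.of_nonneg (hL.e0 l)).star_eq
    have hex : e l * x₁ = 0 := by
      have := congrArg star (hL.xe l)
      rwa [star_mul, star_zero, hel, (IsSelfAdjoint.of_nonneg hL.x0).star_eq] at this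
    have e1 : e l * (max 0 (1 + β - s) • x₁ + ρ • ∑ k ∈ range N, c k • (xi k * xi k) +
        max 0 (s - 1 - α) • T₂) * e l =
          ρ • ∑ k ∈ range N, c k • (e l * (xi k * xi k) * e l) := by
      have e2 : T₂ * e l = 0 := hL.Te l hl hal0
      rw [mul_add, mul_add, mul_smul_comm, hex, smul_zero, zero_add, add_mul, mul_smul_comm,
        mul_smul_comm, smul_mul_assoc, smul_mul_assoc, mul_assoc (e l) T₂, e2, mul_zero, smul_zero,
        add_zero, mul_sum, sum_mul]
      congr 1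
      exact sum_congr rfl fun k _ => by rw [mul_smul_comm, smul_mul_assoc]
    rw [e1, norm_smul, Real.norm_of_nonneg hρ.le] at t
    have b2 : ‖∑ k ∈ range N, c k • (e l * (xi k * xi k) * e l)‖ ≤ α * q l := by
      rw [hC.hα, sum_mul]
      refine (norm_sum_le _ _).trans (sum_le_sum fun k hk => ?_)
      rw [norm_smul, Real.norm_of_nonneg (hC.c0 k)]
      rcases (hC.c0 k).eq_or_lt with h0 | h0
      · rw [← h0, zero_mul, zero_mul]
      · refine mul_le_mul_of_nonneg_left ?_ h0.le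
        rcases lt_trichotomy k l with h1 | h1 | h1
        · rw [mul_assoc, mul_assoc, hL.xie k (mem_range.1 hk) l hl h0 hal0 h1, mul_zero, mul_zero,
            norm_zero]
          exact hC.q0 l
        · subst h1
          have := hC.ca k
          rcases mul_eq_zero.1 this with h2 | h2 <;> linarith
        · exact (hL.exie k (mem_range.1 hk) l hl h0 hal0 h1).trans (hC.qanti l k h1.le)
    have b3 : ρ * a l * 1 ≤ ρ * (1 * q l) := by
      calc ρ * a l * 1 ≤ ρ * a l * ‖e l * e l * e l‖ := by gcongr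
        _ ≤ ρ * ‖∑ k ∈ range N, c k • (e l * (xi k * xi k) * e l)‖ := t
        _ ≤ ρ * (α * q l) := by gcongr
        _ ≤ ρ * (1 * q l) := by
            have := hC.q0 l
            gcongr
            linarith
    have : a l ≤ q l := by
      have h5 : ρ * a l ≤ ρ * q l := by linarith
      exact le_of_mul_le_mul_left h5 hρ
    linarith
  · -- test with `F`
    have hs : s - 1 - α < 0 := by linarith
    have t := norm_test (y := F) (z := F) (κ := max 0 (1 + α - s)) (IsSelfAdjoint.of_nonneg hL.F0)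
      hL.F0 (le_max_left _ _) (by
        refine le_trans ?_ (le_add_of_nonneg_right n3)
        exact le_add_of_nonneg_right n2) hle
    have hFx : F * x₁ = 0 := by
      have := congrArg star hL.xF
      rwa [star_mul, star_zero, (IsSelfAdjoint.of_nonneg hL.F0).star_eq,
        (IsSelfAdjoint.of_nonneg hL.x0).star_eq] at this
    have e1 : F * (max 0 (1 + β - s) • x₁ + ρ • ∑ k ∈ range N, c k • (xi k * xi k) +
        max 0 (s - 1 - α) • T₂) * F = ρ • ∑ k ∈ range N, c k • (F * (xi k * xi k) * F) := by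
      rw [max_eq_left hs.le, zero_smul, add_zero, mul_add, mul_smul_comm, hFx, smul_zero, zero_add,
        mul_smul_comm, smul_mul_assoc, mul_sum, sum_mul]
      congr 1
      exact sum_congr rfl fun k _ => by rw [mul_smul_comm, smul_mul_assoc]
    rw [e1, norm_smul, Real.norm_of_nonneg hρ.le] at t
    have b2 : ‖∑ k ∈ range N, c k • (F * (xi k * xi k) * F)‖ ≤ α * q 0 := by
      rw [hC.hα, sum_mul]
      refine (norm_sum_le _ _).trans (sum_le_sum fun k hk => ?_)
      rw [norm_smul, Real.norm_of_nonneg (hC.c0 k)]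
      rcases (hC.c0 k).eq_or_lt with h0 | h0
      · rw [← h0, zero_mul, zero_mul]
      · exact mul_le_mul_of_nonneg_left ((hL.Fxi k (mem_range.1 hk) h0).trans
          (hC.qanti 0 k (Nat.zero_le _))) h0.le
    have h4 := one_le_norm_cube (IsSelfAdjoint.of_nonneg hL.F0) hL.Fn
    have h5 : 9 / 10 ≤ max 0 (1 + α - s) := le_max_of_le_right (by linarith)
    have b3 : (9 / 10 * 1 : ℝ) ≤ 1 * (1 * (1 / 50)) := by
      calc (9 / 10 * 1 : ℝ) ≤ max 0 (1 + α - s) * ‖F * F * F‖ := by gcongr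
        _ ≤ ρ * ‖∑ k ∈ range N, c k • (F * (xi k * xi k) * F)‖ := t
        _ ≤ ρ * (α * q 0) := by gcongr
        _ ≤ 1 * (1 * (1 / 50)) := by
            have h6 := hC.q1
            have h7 := hC.q0 0
            have h8 := hC.ρle
            have h9 : α ≤ 1 := by linarith
            gcongr
    norm_num at b3

end

end Vale.Agent.P133.W634
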