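import Vale.Agent.P133.W634.Fibre
import Vale.Agent.P133.R2.H474.Her

/-!
P133 (helper634): the letters of the ladder.
-/

open scoped ComplexOrder CStarAlgebra
open Finset

namespace Vale.Agent.P133.W634

open Vale.Agent.P133.R2.H474

universe u

/-! ### the functions -/

/-- the scales -/
noncomputable def bb (k : ℕ) : ℝ := (1 / 2) ^ k / 100

theorem bb_pos (k : ℕ) : 0 < bb k := by unfold bb; positivity

theorem bb_le (k : ℕ) : bb k ≤ 1 / 100 := by
  unfold bb
  have : (1 / 2 : ℝ) ^ k ≤ 1 := pow_le_one₀ (by norm_num) (by norm_num)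
  linarith

/-- `0` before `a`, `1` after `b` -/
noncomputable def ramp (a b s : ℝ) : ℝ := max 0 (min 1 ((s - a) / (b - a)))

theorem ramp_cont (a b : ℝ) : Continuous (ramp a b) := by unfold ramp; fun_prop

theorem ramp_nonneg (a b s : ℝ) : 0 ≤ ramp a b s := le_max_left _ _

theorem ramp_le_one (a b s : ℝ) : ramp a b s ≤ 1 := max_le zero_le_one (min_le_left _ _)

theorem ramp_eq_zero {a b s : ℝ} (hab : a < b) (h : s ≤ a) : ramp a b s = 0 := by
  unfold ramp
  refine max_eq_left ((min_le_right _ _).trans ?_)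
  exact div_nonpos_of_nonpos_of_nonneg (by linarith) (by linarith)

theorem ramp_eq_one {a b s : ℝ} (hab : a < b) (h : b ≤ s) : ramp a b s = 1 := by
  unfold ramp
  rw [min_eq_left, max_eq_right zero_le_one]
  rw [le_div_iff₀ (by linarith)]
  linarith

/-- cut points -/
noncomputable def pt (k : ℕ) : ℝ := 1 / 2 + (1 / 2) ^ (k + 2)

theorem pt_anti {k l : ℕ} (h : k ≤ l) : pt l ≤ pt k := by
  unfold pt
  have : (1 / 2 : ℝ) ^ (l + 2) ≤ (1 / 2) ^ (k + 2) :=
    pow_le_pow_of_le_one (by norm_num) (by norm_num) (by omega)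
  linarith

theorem pt_lt (k : ℕ) : pt (k + 1) < pt k := by
  unfold pt
  have : (1 / 2 : ℝ) ^ (k + 1 + 2) < (1 / 2) ^ (k + 2) :=
    pow_lt_pow_right_of_lt_one₀ (by norm_num) (by norm_num) (by omega)
  linarith

theorem pt_half (k : ℕ) : 1 / 2 < pt k := by
  unfold pt
  have : (0 : ℝ) < (1 / 2) ^ (k + 2) := by positivity
  linarith

theorem pt_zero : pt 0 = 3 / 4 := by unfold pt; norm_num

/-- the cuts of `w`, increasing in `k` -/
noncomputable def fk (k : ℕ) : ℝ → ℝ := ramp (pt (k + 1)) (pt k)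

theorem fk_cont (k : ℕ) : Continuous (fk k) := ramp_cont _ _

theorem fk_zero (k : ℕ) : fk k 0 = 0 :=
  ramp_eq_zero (pt_lt k) (by have := pt_half (k + 1); linarith)

theorem fk_nonneg (k : ℕ) (s : ℝ) : 0 ≤ fk k s := ramp_nonneg _ _ _

theorem fk_le_one (k : ℕ) (s : ℝ) : fk k s ≤ 1 := ramp_le_one _ _ _

theorem fk_mul {k l : ℕ} (h : k < l) (s : ℝ) : fk l s * fk k s = fk k s := by
  rcases le_total s (pt (k + 1)) with h1 | h1
  · have : fk k s = 0 := ramp_eq_zero (pt_lt k) h1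
    rw [this, mul_zero]
  · have : fk l s = 1 := ramp_eq_one (pt_lt l) ((pt_anti (by omega)).trans h1)
    rw [this, one_mul]

/-- the top cut -/
noncomputable def fF : ℝ → ℝ := ramp (3 / 4) 1

theorem fF_cont : Continuous fF := ramp_cont _ _

theorem fF_zero : fF 0 = 0 := ramp_eq_zero (by norm_num) (by norm_num)

theorem fF_nonneg (s : ℝ) : 0 ≤ fF s := ramp_nonneg _ _ _

theorem fF_le_one (s : ℝ) : fF s ≤ 1 := ramp_le_one _ _ _

theorem fk_mul_fF (k : ℕ) (s : ℝ) : fk k s * fF s = fF s := by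
  rcases le_total s (3 / 4) with h1 | h1
  · have : fF s = 0 := ramp_eq_zero (by norm_num) h1
    rw [this, mul_zero]
  · have h2 : pt k ≤ s := by
      have := pt_anti (Nat.zero_le k)
      rw [pt_zero] at this
      linarith
    have : fk k s = 1 := ramp_eq_one (pt_lt k) h2
    rw [this, one_mul]

/-- the cut for near-kernels -/
noncomputable def ph (k : ℕ) : ℝ → ℝ := ramp (1 - 2 * bb k) (1 - bb k)

theorem ph_cont (k : ℕ) : Continuous (ph k) := ramp_cont _ _

theorem ph_zero (k : ℕ) : ph k 0 = 0 :=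
  ramp_eq_zero (by have := bb_pos k; linarith) (by have := bb_le k; linarith)

/-- `s / (1 - s)` -/
noncomputable def ps (k : ℕ) : ℝ → ℝ := fun s => s / max (1 - s) (bb k / 2)

theorem ps_cont (k : ℕ) : Continuous (ps k) := by
  unfold ps
  refine Continuous.div (by fun_prop) (by fun_prop) fun s => ?_
  have := bb_pos k
  exact (lt_of_lt_of_le (by positivity) (le_max_right _ _)).ne'

theorem ps_zero (k : ℕ) : ps k 0 = 0 := by simp [ps]

theorem ps_eq {k : ℕ} {s : ℝ} (h : s < 1 - bb k / 2) : ps k s - s - s * ps k s = 0 := by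
  have h0 := bb_pos k
  have h1 : bb k / 2 < 1 - s := by linarith
  have h2 : (1 - s) ≠ 0 := by
    have : 0 < 1 - s := by linarith
    exact this.ne'
  have h3 : ps k s = s / (1 - s) := by
    show s / max (1 - s) (bb k / 2) = s / (1 - s)
    rw [max_eq_left h1.le]
  rw [h3]
  field_simp
  ring

/-- `min 1 s` -/
noncomputable def th : ℝ → ℝ := fun s => max 0 (min 1 s)

theorem th_cont : Continuous th := by unfold th; fun_prop

theorem th_zero : th 0 = 0 := by simp [th]

theorem th_nonneg (s : ℝ) : 0 ≤ th s := le_max_left _ _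

theorem th_le_one (s : ℝ) : th s ≤ 1 := max_le zero_le_one (min_le_left _ _)

/-! ### the letters -/

section

variable {A : Type u} [NonUnitalCStarAlgebra A]

/-- the rooms -/
def AA (P : ℕ → A) (k : ℕ) : A := ∑ j ∈ range (k + 2), P (j + 1)

/-- the cuts -/
noncomputable def FA (w : A) (k : ℕ) : A := cfcₙ (fk k) w

/-- the top cut -/
noncomputable def FF (w : A) : A := cfcₙ fF w

/-- how far the cut is from being onto the room -/
noncomputable def GG (w : A) (P : ℕ → A) (k : ℕ) : A := AA P k - AA P k * FA w k * AA P k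

/-- near-kernels -/
noncomputable def xi (w : A) (P : ℕ → A) (k : ℕ) : A := cfcₙ (ph k) (GG w P k)

/-- the vectors of the cokernel -/
noncomputable def yy (w : A) (P : ℕ → A) (k : ℕ) : A :=
  FA w k * (P (k + 2) + cfcₙ (ps k) (GG w P k) * P (k + 2))

/-- cokernels -/
noncomputable def ee (w : A) (P : ℕ → A) (k : ℕ) : A :=
  cfcₙ th (yy w P k * star (yy w P k))

theorem AA_sa {P : ℕ → A} (hP : ∀ j, IsSelfAdjoint (P j)) (k : ℕ) : star (AA P k) = AA P k := by
  unfold AA
  rw [star_sum]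
  exact sum_congr rfl fun j _ => (hP _).star_eq

theorem FA_sa (w : A) (k : ℕ) : star (FA w k) = FA w k :=
  (cfcₙ_predicate (p := IsSelfAdjoint) (fk k) w).star_eq

theorem GG_sa {w : A} {P : ℕ → A} (hP : ∀ j, IsSelfAdjoint (P j)) (k : ℕ) :
    IsSelfAdjoint (GG w P k) := by
  rw [IsSelfAdjoint, GG, star_sub, star_mul, star_mul, AA_sa hP, FA_sa]
  simp only [mul_assoc]

theorem xi_sa (w : A) (P : ℕ → A) (k : ℕ) : IsSelfAdjoint (xi w P k) :=
  cfcₙ_predicate (p := IsSelfAdjoint) _ _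

/-! naturality -/

section

variable {B : Type u} [NonUnitalCStarAlgebra B] (φ : A →⋆ₙₐ[ℂ] B)

theorem map_AA (P : ℕ → A) (k : ℕ) : φ (AA P k) = AA (fun j => φ (P j)) k := by
  unfold AA
  rw [map_sum]

theorem map_cfcn {f : ℝ → ℝ} (hf : Continuous f) (hf0 : f 0 = 0) {a : A}
    (ha : IsSelfAdjoint a) : φ (cfcₙ f a) = cfcₙ f (φ a) :=
  NonUnitalStarAlgHomClass.map_cfcₙ φ f a (hf := hf.continuousOn) (hf₀ := hf0)
    (hφ := map_continuous φ) (ha := ha) (hφa := ha.map φ)

theorem map_FA {w : A} (hw : IsSelfAdjoint w) (k : ℕ) : φ (FA w k) = FA (φ w) k :=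
  map_cfcn φ (fk_cont k) (fk_zero k) hw

theorem map_FF {w : A} (hw : IsSelfAdjoint w) : φ (FF w) = FF (φ w) :=
  map_cfcn φ fF_cont fF_zero hw

theorem map_GG {w : A} (hw : IsSelfAdjoint w) (P : ℕ → A) (k : ℕ) :
    φ (GG w P k) = GG (φ w) (fun j => φ (P j)) k := by
  unfold GG
  rw [map_sub, map_mul, map_mul, map_AA, map_FA φ hw]

theorem map_xi {w : A} (hw : IsSelfAdjoint w) {P : ℕ → A} (hP : ∀ j, IsSelfAdjoint (P j))
    (k : ℕ) : φ (xi w P k) = xi (φ w) (fun j => φ (P j)) k := by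
  unfold xi
  rw [map_cfcn φ (ph_cont k) (ph_zero k) (GG_sa hP k), map_GG φ hw]

theorem map_yy {w : A} (hw : IsSelfAdjoint w) {P : ℕ → A} (hP : ∀ j, IsSelfAdjoint (P j))
    (k : ℕ) : φ (yy w P k) = yy (φ w) (fun j => φ (P j)) k := by
  unfold yy
  rw [map_mul, map_add, map_mul, map_FA φ hw, map_cfcn φ (ps_cont k) (ps_zero k) (GG_sa hP k),
    map_GG φ hw]

theorem map_ee {w : A} (hw : IsSelfAdjoint w) {P : ℕ → A} (hP : ∀ j, IsSelfAdjoint (P j))
    (k : ℕ) : φ (ee w P k) = ee (φ w) (fun j => φ (P j)) k := by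
  unfold ee
  rw [map_cfcn φ th_cont th_zero (IsSelfAdjoint.mul_star_self _), map_mul, map_star,
    map_yy φ hw hP]

end

/-! hereditary subalgebras -/

theorem AA_her {a : A} {P : ℕ → A} (hP : ∀ j, P j ∈ her a) (k : ℕ) : AA P k ∈ her a :=
  (her a).sum_mem fun _ _ => hP _

theorem FF_her {a w : A} (hw : IsSelfAdjoint w) (ha : w ∈ her a) : FF w ∈ her a :=
  her_cfc hw ha fF_cont fF_zero

theorem FA_her {a w : A} (hw : IsSelfAdjoint w) (ha : w ∈ her a) (k : ℕ) : FA w k ∈ her a :=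
  her_cfc hw ha (fk_cont k) (fk_zero k)

theorem GG_her {a w : A} (hw : IsSelfAdjoint w) (ha : w ∈ her a) {P : ℕ → A}
    (hP : ∀ j, P j ∈ her a) (k : ℕ) : GG w P k ∈ her a :=
  (her a).sub_mem (AA_her hP k) (her_mul (her_mul (AA_her hP k) (FA_her hw ha k)) (AA_her hP k))

theorem xi_her {a w : A} (hw : IsSelfAdjoint w) (ha : w ∈ her a) {P : ℕ → A}
    (hPs : ∀ j, IsSelfAdjoint (P j)) (hP : ∀ j, P j ∈ her a) (k : ℕ) : xi w P k ∈ her a :=
  her_cfc (GG_sa hPs k) (GG_her hw ha hP k) (ph_cont k) (ph_zero k)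

theorem yy_her {a w : A} (hw : IsSelfAdjoint w) (ha : w ∈ her a) {P : ℕ → A}
    (hPs : ∀ j, IsSelfAdjoint (P j)) (hP : ∀ j, P j ∈ her a) (k : ℕ) : yy w P k ∈ her a :=
  her_mul (FA_her hw ha k) ((her a).add_mem (hP _) (her_mul
    (her_cfc (GG_sa hPs k) (GG_her hw ha hP k) (ps_cont k) (ps_zero k)) (hP _)))

theorem ee_her {a w : A} (haa : star a = a) (hw : IsSelfAdjoint w) (ha : w ∈ her a) {P : ℕ → A}
    (hPs : ∀ j, IsSelfAdjoint (P j)) (hP : ∀ j, P j ∈ her a) (k : ℕ) : ee w P k ∈ her a :=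
  her_cfc (IsSelfAdjoint.mul_star_self _)
    (her_mul (yy_her hw ha hPs hP k) (her_star haa (yy_her hw ha hPs hP k))) th_cont th_zero

/-- left multiplication on a hereditary subalgebra -/
theorem mul_her {a x q : A} (h : q * a = 0) (hx : x ∈ her a) : q * x = 0 := by
  have h1 : q * x ∈ closure ({0} : Set A) := by
    refine map_mem_closure (f := fun x : A => q * x) (by fun_prop) hx ?_
    rintro _ ⟨v, rfl⟩
    show q * (a * v * a) = 0
    rw [← mul_assoc, ← mul_assoc, h, zero_mul, zero_mul]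
  rwa [closure_singleton] at h1

theorem unit_her {a x q : A} (h : q * a = a) (hx : x ∈ her a) : q * x = x := by
  have h1 : q * x - x ∈ closure ({0} : Set A) := by
    refine map_mem_closure (f := fun x : A => q * x - x) (by fun_prop) hx ?_
    rintro _ ⟨v, rfl⟩
    show q * (a * v * a) - a * v * a = 0
    rw [← mul_assoc, ← mul_assoc, h, sub_self]
  rw [closure_singleton] at h1
  exact sub_eq_zero.1 h1

end

/-! ### relations in one algebra -/

section

variable {B : Type u} [NonUnitalCStarAlgebra B] [PartialOrder B] [StarOrderedRing B]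

/-- orthogonal nonzero projections -/
structure Proj (P : ℕ → B) : Prop where
  sa : ∀ j, IsSelfAdjoint (P j)
  mul : ∀ i j, P i * P j = if i = j then P i else 0
  ne : ∀ j, P j ≠ 0

theorem Proj.norm {P : ℕ → B} (hP : Proj P) (j : ℕ) : ‖P j‖ = 1 := by
  have h1 := CStarRing.norm_star_mul_self (x := P j)
  rw [(hP.sa j).star_eq, hP.mul j j, if_pos rfl] at h1
  have h2 : 0 < ‖P j‖ := norm_pos_iff.2 (hP.ne j)
  nlinarith

theorem Proj.nonneg {P : ℕ → B} (hP : Proj P) (j : ℕ) : 0 ≤ P j := by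
  have := star_mul_self_nonneg (P j)
  rwa [(hP.sa j).star_eq, hP.mul j j, if_pos rfl] at this

variable {P : ℕ → B}

theorem P_AA (hP : Proj P) (i k : ℕ) :
    P i * AA P k = if 1 ≤ i ∧ i ≤ k + 2 then P i else 0 := by
  unfold AA
  rw [mul_sum]
  simp only [hP.mul]
  split_ifs with h
  · obtain ⟨h1, h2⟩ := h
    rw [sum_eq_single (i - 1)]
    · rw [if_pos (by omega)]
    · intro j _ hj
      rw [if_neg (by omega)]
    · intro hi
      exact absurd (mem_range.2 (by omega)) hi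
  · refine sum_eq_zero fun j hj => ?_
    have := mem_range.1 hj
    rw [if_neg (by omega)]

theorem AA_P (hP : Proj P) (i k : ℕ) :
    AA P k * P i = if 1 ≤ i ∧ i ≤ k + 2 then P i else 0 := by
  have h := congrArg star (P_AA hP i k)
  rw [star_mul, AA_sa hP.sa, (hP.sa i).star_eq] at h
  rw [h]
  split_ifs
  · exact (hP.sa i).star_eq
  · exact star_zero _

theorem AA_AA (hP : Proj P) (k : ℕ) : AA P k * AA P k = AA P k := by
  have h : AA P k * AA P k = ∑ j ∈ range (k + 2), P (j + 1) * AA P k := Finset.sum_mul _ _ _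
  rw [h]
  refine sum_congr rfl fun j hj => ?_
  have := mem_range.1 hj
  rw [P_AA hP, if_pos (by omega)]

theorem AA_nonneg (hP : Proj P) (k : ℕ) : 0 ≤ AA P k := by
  have := star_mul_self_nonneg (AA P k)
  rwa [AA_sa hP.sa, AA_AA hP] at this

theorem AA_GG (hP : Proj P) (w : B) (k : ℕ) : AA P k * GG w P k = GG w P k := by
  unfold GG
  rw [mul_sub, AA_AA hP, ← mul_assoc, ← mul_assoc, AA_AA hP]

theorem GG_AA (hP : Proj P) (w : B) (k : ℕ) : GG w P k * AA P k = GG w P k := by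
  unfold GG
  rw [sub_mul, AA_AA hP, mul_assoc, AA_AA hP]

theorem AA_cfc (hP : Proj P) (w : B) (k : ℕ) {f : ℝ → ℝ} (hf : Continuous f) (hf0 : f 0 = 0) :
    AA P k * cfcₙ f (GG w P k) = cfcₙ f (GG w P k) :=
  unit_her (AA_GG hP w k) (her_cfc (GG_sa hP.sa k) (self_mem_her (GG_sa hP.sa k)) hf hf0)

theorem cfc_AA (hP : Proj P) (w : B) (k : ℕ) {f : ℝ → ℝ} (hf : Continuous f) (hf0 : f 0 = 0) :
    cfcₙ f (GG w P k) * AA P k = cfcₙ f (GG w P k) := by
  have h := congrArg star (AA_cfc hP w k hf hf0)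
  rwa [star_mul, AA_sa hP.sa, (cfcₙ_predicate (p := IsSelfAdjoint) f (GG w P k)).star_eq] at h

theorem FA_nonneg (w : B) (k : ℕ) : 0 ≤ FA w k := cfcₙ_nonneg fun s _ => fk_nonneg k s

theorem FA_norm (w : B) (k : ℕ) : ‖FA w k‖ ≤ 1 := norm_cfcₙ_le fun s _ => by
  rw [Real.norm_of_nonneg (fk_nonneg k s)]
  exact fk_le_one k s

theorem FF_nonneg (w : B) : 0 ≤ FF w := cfcₙ_nonneg fun s _ => fF_nonneg s

theorem FF_norm_le (w : B) : ‖FF w‖ ≤ 1 := norm_cfcₙ_le fun s _ => by
  rw [Real.norm_of_nonneg (fF_nonneg s)]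
  exact fF_le_one s

theorem FF_norm {w : B} (hw : 0 ≤ w) (h1 : ‖w‖ = 1) : ‖FF w‖ = 1 := by
  refine le_antisymm (FF_norm_le w) ?_
  by_contra hlt
  push Not at hlt
  have h2 : ‖cfcₙ (fun s : ℝ => s) w‖ < 1 := by
    refine norm_cfcₙ_lt fun s hs => ?_
    have h3 := norm_apply_le_norm_cfcₙ fF w hs fF_cont.continuousOn fF_zero
    have h4 : 0 ≤ s := quasispectrum_nonneg_of_nonneg w hw s hs
    rw [Real.norm_of_nonneg h4]
    by_contra hs1
    push Not at hs1
    have h5 : fF s = 1 := ramp_eq_one (by norm_num) hs1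
    rw [h5, norm_one] at h3
    exact absurd (lt_of_le_of_lt h3 hlt) (lt_irrefl _)
  rw [cfcₙ_id' ℝ w, h1] at h2
  exact lt_irrefl _ h2

theorem FA_FF {w : B} (k : ℕ) : FA w k * FF w = FF w := by
  unfold FA FF
  rw [← cfcₙ_mul (fk k) fF w (fk_cont k).continuousOn (fk_zero k) fF_cont.continuousOn fF_zero]
  congr 1
  funext s
  exact fk_mul_fF k s

theorem FA_FA {w : B} {k l : ℕ} (h : k < l) : FA w l * FA w k = FA w k := by
  unfold FA
  rw [← cfcₙ_mul (fk l) (fk k) w (fk_cont l).continuousOn (fk_zero l) (fk_cont k).continuousOn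
    (fk_zero k)]
  congr 1
  funext s
  exact fk_mul h s

theorem GG_le (hP : Proj P) (w : B) (k : ℕ) : GG w P k ≤ AA P k := by
  unfold GG
  rw [sub_le_self_iff]
  have := star_left_conjugate_nonneg (FA_nonneg w k) (AA P k)
  rwa [AA_sa hP.sa] at this

theorem GG_nonneg (hP : Proj P) (w : B) (k : ℕ) : 0 ≤ GG w P k := by
  unfold GG
  rw [sub_nonneg]
  have h1 := CStarAlgebra.star_left_conjugate_le_norm_smul (a := AA P k) (b := FA w k)
    (IsSelfAdjoint.of_nonneg (FA_nonneg w k))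
  rw [AA_sa hP.sa, AA_AA hP] at h1
  refine h1.trans ?_
  have h2 := smul_le_smul_of_nonneg_right (FA_norm w k) (AA_nonneg hP k)
  rwa [one_smul] at h2

theorem GG_norm (hP : Proj P) (w : B) (k : ℕ) : ‖GG w P k‖ ≤ 1 := by
  refine (CStarAlgebra.norm_le_norm_of_nonneg_of_le (GG_nonneg hP w k) (GG_le hP w k)).trans ?_
  have h1 := CStarRing.norm_star_mul_self (x := AA P k)
  rw [AA_sa hP.sa, AA_AA hP] at h1
  by_contra h2
  push Not at h2
  nlinarith

theorem spec_GG (hP : Proj P) (w : B) (k : ℕ) {s : ℝ} (hs : s ∈ quasispectrum ℝ (GG w P k)) :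
    0 ≤ s ∧ s ≤ ‖GG w P k‖ := by
  refine ⟨quasispectrum_nonneg_of_nonneg _ (GG_nonneg hP w k) s hs, ?_⟩
  have := norm_apply_le_norm_cfcₙ (fun s : ℝ => s) (GG w P k) hs (by fun_prop) rfl (GG_sa hP.sa k)
  rw [cfcₙ_id' ℝ (GG w P k) (GG_sa hP.sa k)] at this
  exact (le_abs_self s).trans this

theorem xi_norm_le (w : B) (k : ℕ) : ‖xi w P k‖ ≤ 1 := norm_cfcₙ_le fun s _ => by
  rw [ph, Real.norm_of_nonneg (ramp_nonneg _ _ _)]
  exact ramp_le_one _ _ _

theorem xi_norm (hP : Proj P) {w : B} {k : ℕ} (h : 1 - bb k < ‖GG w P k‖) : ‖xi w P k‖ = 1 := by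
  refine le_antisymm (xi_norm_le w k) ?_
  by_contra hlt
  push Not at hlt
  have h2 : ‖cfcₙ (fun s : ℝ => s) (GG w P k)‖ ≤ 1 - bb k := by
    refine norm_cfcₙ_le fun s hs => ?_
    have h3 := norm_apply_le_norm_cfcₙ (ph k) (GG w P k) hs (ph_cont k).continuousOn (ph_zero k)
      (GG_sa hP.sa k)
    obtain ⟨h4, -⟩ := spec_GG hP w k hs
    rw [Real.norm_of_nonneg h4]
    by_contra hs1
    push Not at hs1
    have h5 : ph k s = 1 := ramp_eq_one (by have := bb_pos k; linarith) hs1.le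
    rw [h5, norm_one] at h3
    exact absurd (lt_of_le_of_lt h3 hlt) (lt_irrefl _)
  rw [cfcₙ_id' ℝ (GG w P k) (GG_sa hP.sa k)] at h2
  linarith

theorem xi_AA (hP : Proj P) (w : B) (k : ℕ) : xi w P k * AA P k = xi w P k :=
  cfc_AA hP w k (ph_cont k) (ph_zero k)

theorem AA_xi (hP : Proj P) (w : B) (k : ℕ) : AA P k * xi w P k = xi w P k :=
  AA_cfc hP w k (ph_cont k) (ph_zero k)

/-- the near-kernel property -/
theorem xi_FA_xi (hP : Proj P) (w : B) (k : ℕ) :
    ‖xi w P k * FA w k * xi w P k‖ ≤ 2 * bb k := by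
  have e1 : xi w P k * FA w k * xi w P k =
      cfcₙ (fun s => ph k s * (ph k s - s * ph k s)) (GG w P k) := by
    rw [cfcₙ_mul (ph k) (fun s => ph k s - s * ph k s) (GG w P k) (ph_cont k).continuousOn
      (ph_zero k) ((ph_cont k).sub (continuous_id.mul (ph_cont k))).continuousOn
      (by simp [ph_zero]),
      cfcₙ_sub (ph k) (fun s => s * ph k s) (GG w P k) (ph_cont k).continuousOn (ph_zero k)
      (continuous_id.mul (ph_cont k)).continuousOn (by simp),
      cfcₙ_mul (fun s => s) (ph k) (GG w P k) (by fun_prop) rfl (ph_cont k).continuousOn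
      (ph_zero k), cfcₙ_id' ℝ (GG w P k) (GG_sa hP.sa k)]
    show xi w P k * FA w k * xi w P k = xi w P k * (xi w P k - GG w P k * xi w P k)
    have e2 : GG w P k * xi w P k = xi w P k - AA P k * FA w k * xi w P k := by
      rw [GG, sub_mul, AA_xi hP, mul_assoc (AA P k * FA w k), AA_xi hP]
    rw [e2, sub_sub_cancel, ← mul_assoc, ← mul_assoc, xi_AA hP]
  rw [e1]
  refine norm_cfcₙ_le fun s hs => ?_
  obtain ⟨h1, h2⟩ := spec_GG hP w k hs
  have h3 := GG_norm hP w k
  have hb := bb_pos k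
  have h4 : 0 ≤ ph k s := ramp_nonneg _ _ _
  have h5 : ph k s ≤ 1 := ramp_le_one _ _ _
  have e3 : ph k s * (ph k s - s * ph k s) = ph k s * ph k s * (1 - s) := by ring
  rw [e3, Real.norm_of_nonneg (by
    have : 0 ≤ 1 - s := by linarith
    positivity)]
  rcases le_total s (1 - 2 * bb k) with h | h
  · have : ph k s = 0 := ramp_eq_zero (by linarith) h
    rw [this]
    linarith
  · have h6 : ph k s * ph k s ≤ 1 := by nlinarith
    have h7 : 0 ≤ 1 - s := by linarith
    nlinarith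

theorem xi_FA (hP : Proj P) (w : B) (k : ℕ) : ‖xi w P k * FA w k‖ ^ 2 ≤ 2 * bb k := by
  have hxs : star (xi w P k) = xi w P k := (xi_sa w P k).star_eq
  have h1 := CStarRing.norm_self_mul_star (x := xi w P k * FA w k)
  rw [star_mul, FA_sa, hxs] at h1
  rw [sq, ← h1]
  refine le_trans ?_ (xi_FA_xi hP w k)
  have h2 : FA w k * FA w k ≤ FA w k := by
    unfold FA
    rw [← cfcₙ_mul (fk k) (fk k) w (fk_cont k).continuousOn (fk_zero k) (fk_cont k).continuousOn
      (fk_zero k)]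
    refine cfcₙ_mono (fun s _ => ?_) ((fk_cont k).mul (fk_cont k)).continuousOn
      (fk_cont k).continuousOn (by simp [fk_zero]) (fk_zero k)
    have := fk_nonneg k s
    have := fk_le_one k s
    nlinarith
  have h3 : 0 ≤ FA w k * FA w k := by
    have := star_mul_self_nonneg (FA w k)
    rwa [FA_sa] at this
  have h4 := star_left_conjugate_le_conjugate h2 (xi w P k)
  have h5 := star_left_conjugate_nonneg h3 (xi w P k)
  rw [hxs] at h4 h5
  have h6 := CStarAlgebra.norm_le_norm_of_nonneg_of_le h5 h4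
  have e1 : xi w P k * FA w k * (FA w k * xi w P k) = xi w P k * (FA w k * FA w k) * xi w P k := by
    simp only [mul_assoc]
  rw [e1]
  exact h6

/-- sandwich estimates -/
theorem sandwich (hP : Proj P) (w : B) (k : ℕ) {z : B} (hz : IsSelfAdjoint z) (hzn : ‖z‖ ≤ 1)
    (hfz : FA w k * z = z) :
    ‖xi w P k * z * xi w P k‖ ≤ 2 * bb k ∧ ‖z * (xi w P k * xi w P k) * z‖ ≤ 2 * bb k := by
  have hxs : star (xi w P k) = xi w P k := (xi_sa w P k).star_eq
  have hzf : z * FA w k = z := by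
    have := congrArg star hfz
    rwa [star_mul, FA_sa, hz.star_eq] at this
  have h1 := xi_FA hP w k
  have h2 : ‖FA w k * xi w P k‖ = ‖xi w P k * FA w k‖ := by
    rw [← norm_star, star_mul, FA_sa, hxs]
  have h0 := norm_nonneg (xi w P k * FA w k)
  constructor
  · have e1 : xi w P k * z * xi w P k = (xi w P k * FA w k) * z * (FA w k * xi w P k) := by
      calc xi w P k * z * xi w P k = xi w P k * (FA w k * z * FA w k) * xi w P k := by
            rw [hfz, hzf]
        _ = _ := by simp only [mul_assoc]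
    rw [e1]
    calc _ ≤ ‖xi w P k * FA w k‖ * ‖z‖ * ‖FA w k * xi w P k‖ :=
          (norm_mul_le _ _).trans (by gcongr; exact norm_mul_le _ _)
      _ ≤ ‖xi w P k * FA w k‖ * 1 * ‖xi w P k * FA w k‖ := by rw [h2]; gcongr
      _ = ‖xi w P k * FA w k‖ ^ 2 := by ring
      _ ≤ _ := h1
  · have e1 : z * (xi w P k * xi w P k) * z =
        z * ((FA w k * xi w P k) * (xi w P k * FA w k)) * z := by
      calc z * (xi w P k * xi w P k) * z =
            (z * FA w k) * (xi w P k * xi w P k) * (FA w k * z) := by rw [hfz, hzf]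
        _ = _ := by simp only [mul_assoc]
    rw [e1]
    calc _ ≤ ‖z‖ * (‖FA w k * xi w P k‖ * ‖xi w P k * FA w k‖) * ‖z‖ :=
          (norm_mul_le _ _).trans (by
            gcongr
            exact (norm_mul_le _ _).trans (by gcongr; exact norm_mul_le _ _))
      _ ≤ 1 * (‖xi w P k * FA w k‖ * ‖xi w P k * FA w k‖) * 1 := by rw [h2]; gcongr
      _ = ‖xi w P k * FA w k‖ ^ 2 := by ring
      _ ≤ _ := h1

/-- `A_k y = P (k + 2)` -/
theorem AA_yy (hP : Proj P) {w : B} {k : ℕ} (h : ‖GG w P k‖ < 1 - bb k / 2) :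
    AA P k * yy w P k = P (k + 2) := by
  have hG := GG_sa (w := w) hP.sa k
  have hAP : AA P k * P (k + 2) = P (k + 2) := by rw [AA_P hP, if_pos (by omega)]
  have e1 : AA P k * FA w k * AA P k = AA P k - GG w P k := by
    rw [GG, sub_sub_cancel]
  have e2 : cfcₙ (ps k) (GG w P k) - GG w P k - GG w P k * cfcₙ (ps k) (GG w P k) = 0 := by
    have c1 : ContinuousOn (ps k) (quasispectrum ℝ (GG w P k)) := (ps_cont k).continuousOn
    have c2 : ContinuousOn (fun s => s * ps k s) (quasispectrum ℝ (GG w P k)) :=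
      (continuous_id.mul (ps_cont k)).continuousOn
    calc cfcₙ (ps k) (GG w P k) - GG w P k - GG w P k * cfcₙ (ps k) (GG w P k) =
        cfcₙ (fun s => ps k s - s - s * ps k s) (GG w P k) := by
          rw [cfcₙ_sub (fun s => ps k s - s) (fun s => s * ps k s) (GG w P k)
            ((ps_cont k).sub continuous_id).continuousOn (by simp [ps_zero]) c2 (by simp),
            cfcₙ_sub (ps k) (fun s => s) (GG w P k) c1 (ps_zero k) (by fun_prop) rfl,
            cfcₙ_mul (fun s => s) (ps k) (GG w P k) (by fun_prop) rfl c1 (ps_zero k),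
            cfcₙ_id' ℝ (GG w P k) hG]
      _ = cfcₙ (fun _ => (0 : ℝ)) (GG w P k) := by
          refine cfcₙ_congr fun s hs => ?_
          exact ps_eq (lt_of_le_of_lt (spec_GG hP w k hs).2 h)
      _ = 0 := cfcₙ_const_zero ℝ _
  set ψ : B := cfcₙ (ps k) (GG w P k) with hψ
  have e3 : AA P k * ψ = ψ := AA_cfc hP w k (ps_cont k) (ps_zero k)
  have e4 : P (k + 2) + ψ * P (k + 2) = AA P k * (P (k + 2) + ψ * P (k + 2)) := by
    rw [mul_add, hAP, ← mul_assoc, e3]
  have e5 : AA P k * yy w P k = (AA P k - GG w P k) * (P (k + 2) + ψ * P (k + 2)) := by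
    calc AA P k * yy w P k = AA P k * (FA w k * (AA P k * (P (k + 2) + ψ * P (k + 2)))) := by
          rw [← e4, yy]
      _ = AA P k * FA w k * AA P k * (P (k + 2) + ψ * P (k + 2)) := by simp only [mul_assoc]
      _ = _ := by rw [e1]
  rw [e5, sub_mul, ← e4]
  have e6 : P (k + 2) + ψ * P (k + 2) - GG w P k * (P (k + 2) + ψ * P (k + 2)) =
      P (k + 2) + (ψ - GG w P k - GG w P k * ψ) * P (k + 2) := by
    noncomm_ring
  rw [e6, e2, zero_mul, add_zero]

theorem P_yy (hP : Proj P) {w : B} {k : ℕ} (h : ‖GG w P k‖ < 1 - bb k / 2) {j : ℕ} (h1 : 1 ≤ j)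
    (h2 : j ≤ k + 1) : P j * yy w P k = 0 := by
  have e1 : P j = P j * AA P k := by rw [P_AA hP, if_pos (by omega)]
  rw [e1, mul_assoc, AA_yy hP h, hP.mul, if_neg (by omega)]

theorem ee_sa (w : B) (P : ℕ → B) (k : ℕ) : IsSelfAdjoint (ee w P k) :=
  cfcₙ_predicate (p := IsSelfAdjoint) _ _

theorem ee_nonneg (w : B) (P : ℕ → B) (k : ℕ) : 0 ≤ ee w P k := cfcₙ_nonneg fun s _ => th_nonneg s

theorem ee_norm_le (w : B) (P : ℕ → B) (k : ℕ) : ‖ee w P k‖ ≤ 1 := norm_cfcₙ_le fun s _ => by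
  rw [Real.norm_of_nonneg (th_nonneg s)]
  exact th_le_one s

theorem ee_mem (w : B) (P : ℕ → B) (k : ℕ) : ee w P k ∈ her (yy w P k * star (yy w P k)) :=
  her_cfc (IsSelfAdjoint.mul_star_self _) (self_mem_her (IsSelfAdjoint.mul_star_self _)) th_cont
    th_zero

theorem mul_ee {w q : B} {k : ℕ} (h : q * yy w P k = 0) : q * ee w P k = 0 :=
  mul_her (by rw [← mul_assoc, h, zero_mul]) (ee_mem w P k)

theorem P_ee (hP : Proj P) {w : B} {k : ℕ} (h : ‖GG w P k‖ < 1 - bb k / 2) {j : ℕ} (h1 : 1 ≤ j)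
    (h2 : j ≤ k + 1) : P j * ee w P k = 0 := mul_ee (P_yy hP h h1 h2)

theorem AA_ee (hP : Proj P) {w : B} {k l : ℕ} (h : ‖GG w P l‖ < 1 - bb l / 2) (hkl : k < l) :
    AA P k * ee w P l = 0 := by
  unfold AA
  rw [sum_mul]
  refine sum_eq_zero fun j hj => ?_
  have := mem_range.1 hj
  exact P_ee hP h (by omega) (by omega)

theorem FA_yy {w : B} {k l : ℕ} (h : k < l) : FA w l * yy w P k = yy w P k := by
  unfold yy
  rw [← mul_assoc, FA_FA h]

theorem FA_ee {w : B} {k l : ℕ} (h : k < l) : FA w l * ee w P k = ee w P k :=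
  unit_her (by rw [← mul_assoc, FA_yy h]) (ee_mem w P k)

theorem ee_norm (hP : Proj P) {w : B} {k : ℕ} (h : ‖GG w P k‖ < 1 - bb k / 2) :
    ‖ee w P k‖ = 1 := by
  refine le_antisymm (ee_norm_le w P k) ?_
  have hA : ‖AA P k‖ ≤ 1 := by
    have h1 := CStarRing.norm_star_mul_self (x := AA P k)
    rw [AA_sa hP.sa, AA_AA hP] at h1
    by_contra h2
    push Not at h2
    nlinarith
  have h1 : 1 ≤ ‖yy w P k‖ := by
    have := norm_mul_le (AA P k) (yy w P k)
    rw [AA_yy hP h, hP.norm] at this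
    nlinarith [norm_nonneg (yy w P k)]
  have h2 : 1 ≤ ‖yy w P k * star (yy w P k)‖ := by
    rw [CStarRing.norm_self_mul_star]
    nlinarith
  by_contra hlt
  push Not at hlt
  have h3 : ‖cfcₙ (fun s : ℝ => s) (yy w P k * star (yy w P k))‖ < 1 := by
    refine norm_cfcₙ_lt fun s hs => ?_
    have h3 := norm_apply_le_norm_cfcₙ th _ hs th_cont.continuousOn th_zero
      (IsSelfAdjoint.mul_star_self _)
    have h4 : 0 ≤ s := quasispectrum_nonneg_of_nonneg _ (mul_star_self_nonneg _) s hs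
    rw [Real.norm_of_nonneg h4]
    by_contra hs1
    push Not at hs1
    have h5 : th s = 1 := by
      show max 0 (min 1 s) = 1
      rw [min_eq_left hs1, max_eq_right zero_le_one]
    rw [h5, norm_one] at h3
    exact absurd (lt_of_le_of_lt h3 hlt) (lt_irrefl _)
  rw [cfcₙ_id' ℝ _ (IsSelfAdjoint.mul_star_self _)] at h3
  linarith

/-- the sequence of errors -/
noncomputable def qq (k : ℕ) : ℝ := 2 * bb k

theorem qq_sum (N : ℕ) : ∑ k ∈ range N, qq k ≤ 1 / 25 := by
  have h : ∀ N : ℕ, ∑ k ∈ range N, qq k = (1 - (1 / 2 : ℝ) ^ N) / 25 := by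
    intro N
    induction N with
    | zero => simp
    | succ N ih =>
      rw [sum_range_succ, ih, qq, bb, pow_succ]
      ring
  rw [h N]
  have : (0 : ℝ) ≤ (1 / 2) ^ N := by positivity
  linarith

theorem qq_anti {k l : ℕ} (h : k ≤ l) : qq l ≤ qq k := by
  unfold qq bb
  have : (1 / 2 : ℝ) ^ l ≤ (1 / 2) ^ k :=
    pow_le_pow_of_le_one (by norm_num) (by norm_num) h
  linarith

/-- The letters satisfy the relations used in the fibre. -/
theorem letters (hP : Proj P) {x₁ w : B} (hx : 0 ≤ x₁) (hxn : ‖x₁‖ = 1) (hw : 0 ≤ w)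
    (hwn : ‖w‖ = 1) (hxw : x₁ * w = 0) {N : ℕ} {c a : ℕ → ℝ}
    (hc : ∀ k < N, 0 < c k → 1 - bb k < ‖GG w P k‖)
    (ha : ∀ k < N, 0 < a k → ‖GG w P k‖ < 1 - bb k / 2) :
    Letters N c a qq x₁ (FF w) (P 1) (P 0) (xi w P) (ee w P) := by
  have hws : IsSelfAdjoint w := IsSelfAdjoint.of_nonneg hw
  have hFs : IsSelfAdjoint (FF w) := IsSelfAdjoint.of_nonneg (FF_nonneg w)
  have hxF : x₁ * FF w = 0 := mul_her hxw (her_cfc hws (self_mem_her hws) fF_cont fF_zero)
  have hxFA : ∀ k, x₁ * FA w k = 0 := fun k =>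
    mul_her hxw (her_cfc hws (self_mem_her hws) (fk_cont k) (fk_zero k))
  exact
  { x0 := hx
    xn := hxn
    F0 := FF_nonneg w
    Fn := FF_norm hw hwn
    T20 := hP.nonneg 1
    T2n := hP.norm 1
    T30 := hP.nonneg 0
    T3n := hP.norm 0
    xi0 := xi_sa w P
    xin := fun k hk h => xi_norm hP (hc k hk h)
    e0 := ee_nonneg w P
    en := fun k hk h => ee_norm hP (ha k hk h)
    xF := hxF
    xe := fun k => mul_ee (by rw [yy, ← mul_assoc, hxFA, zero_mul])
    TT := by rw [hP.mul, if_neg (by omega)]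
    Te := fun k hk h => P_ee hP (ha k hk h) le_rfl (by omega)
    xiT := fun k => by
      rw [← xi_AA hP, mul_assoc, AA_P hP, if_neg (by omega), mul_zero]
    xiF := fun k _ _ => (sandwich hP w k hFs (FF_norm_le w) (FA_FF k)).1
    Fxi := fun k _ _ => (sandwich hP w k hFs (FF_norm_le w) (FA_FF k)).2
    xie := fun k _ l hl _ hal hkl => by
      rw [← xi_AA hP, mul_assoc, AA_ee hP (ha l hl hal) hkl, mul_zero]
    xiexi := fun k _ l _ _ _ hlk =>
      (sandwich hP w k (ee_sa w P l) (ee_norm_le w P l) (FA_ee hlk)).1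
    exie := fun k _ l _ _ _ hlk =>
      (sandwich hP w k (ee_sa w P l) (ee_norm_le w P l) (FA_ee hlk)).2 }

end

end Vale.Agent.P133.W634
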