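import Vale.Agent.P133.H330.TopField
import Vale.Agent.P133.H832.SimpleDef

/-!
P133 (helper779): C*-algebras with Hausdorff primitive ideal space are the algebras of sections of
continuous fields of simple C*-algebras.
-/

open scoped ComplexOrder

namespace Vale.Agent.P133.W634

open Vale.Agent.P133 Vale.Agent.P133F Vale.Agent.P133.Statement Vale.Agent.P133.H832
  Vale.Agent.P133.H681 Vale.Agent.P133.R2 Vale.Agent.P133.R2.H28 Vale.Agent.P133.H330
  TopologicalSpace Topology

universe u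

/-- Hausdorff core-compact spaces are locally compact. -/
theorem locallyCompact_of_coreCompact {X : Type u} [TopologicalSpace X] [T2Space X]
    (hcc : ∀ (x : X) (U : Set X), IsOpen U → x ∈ U → ∃ V : Set X, IsOpen V ∧ x ∈ V ∧ V ⊆ U ∧
      ∀ F : Set (Set X), F.Nonempty → DirectedOn (· ⊆ ·) F → (∀ W ∈ F, IsOpen W) → U ⊆ ⋃₀ F →
        ∃ W ∈ F, V ⊆ W) : LocallyCompactSpace X := by
  refine ⟨fun x n hn => ?_⟩
  obtain ⟨U, hUn, hU, hxU⟩ := mem_nhds_iff.1 hn
  obtain ⟨W, hW, hxW, hWU, hWU'⟩ := hcc x U hU hxU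
  obtain ⟨V, hV, hxV, hVW, hVW'⟩ := hcc x W hW hxW
  have hcl : closure V ⊆ W := by
    intro y hy
    by_contra hyW
    obtain ⟨_, ⟨N, ⟨hN, hyN⟩, rfl⟩, hVN⟩ := hVW'
      ((fun N : Set X => (closure N)ᶜ) '' {N | IsOpen N ∧ y ∈ N})
      ⟨_, Set.univ, ⟨isOpen_univ, Set.mem_univ y⟩, rfl⟩ (by
        rintro _ ⟨N, hN, rfl⟩ _ ⟨N', hN', rfl⟩
        exact ⟨_, ⟨N ∩ N', ⟨hN.1.inter hN'.1, hN.2, hN'.2⟩, rfl⟩,
          Set.compl_subset_compl.2 (closure_mono Set.inter_subset_left),
          Set.compl_subset_compl.2 (closure_mono Set.inter_subset_right)⟩) (by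
        rintro _ ⟨N, hN, rfl⟩
        exact isClosed_closure.isOpen_compl) (by
        intro w hw
        have hne : w ≠ y := fun h => hyW (h ▸ hw)
        obtain ⟨N₁, N₂, h1, h2, hw1, hy2, hd⟩ := t2_separation hne
        refine ⟨_, ⟨N₂, ⟨h2, hy2⟩, rfl⟩, fun hw2 => ?_⟩
        obtain ⟨z, hz1, hz2⟩ := mem_closure_iff.1 hw2 N₁ h1 hw1
        exact Set.disjoint_left.1 hd hz1 hz2)
    obtain ⟨z, hz1, hz2⟩ := mem_closure_iff.1 hy N hN hyN
    exact hVN hz2 (subset_closure hz1)
  refine ⟨closure V, Filter.mem_of_superset (hV.mem_nhds hxV) subset_closure,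
    hcl.trans (hWU.trans hUn), isCompact_of_finite_subcover fun {ι} O hO hcov => ?_⟩
  obtain ⟨_, ⟨t, rfl⟩, ht⟩ := hWU'
    (Set.range fun t : Finset ι => (⋃ i ∈ t, O i) ∪ (closure V)ᶜ) ⟨_, ∅, rfl⟩ (by
      classical
      rintro _ ⟨t, rfl⟩ _ ⟨t', rfl⟩
      refine ⟨_, ⟨t ∪ t', rfl⟩, Set.union_subset_union_left _ ?_,
        Set.union_subset_union_left _ ?_⟩
      · exact Set.biUnion_subset_biUnion_left fun i hi => Finset.mem_union_left _ hi
      · exact Set.biUnion_subset_biUnion_left fun i hi => Finset.mem_union_right _ hi) (by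
      rintro _ ⟨t, rfl⟩
      exact (isOpen_biUnion fun i _ => hO i).union isClosed_closure.isOpen_compl) (by
      intro w _
      by_cases hw : w ∈ closure V
      · obtain ⟨i, hi⟩ := Set.mem_iUnion.1 (hcov hw)
        refine ⟨_, ⟨{i}, rfl⟩, Or.inl ?_⟩
        exact Set.mem_biUnion (Finset.mem_singleton_self i) hi
      · exact ⟨_, ⟨∅, rfl⟩, Or.inr hw⟩)
  refine ⟨t, fun w hw => ?_⟩
  rcases ht (hcl hw) with h | h
  · exact h
  · exact absurd hw h

section

variable {X : Type u} [TopologicalSpace X] [T2Space X] {A : Type u}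
  [NonUnitalCStarAlgebra A] [PartialOrder A] [StarOrderedRing A] {e : Opens X → Submodule ℂ A}
  (he : ∀ O, IsClosedIdeal (e O))
  (hs : ∀ I, IsClosedIdeal I → ∃ O, e O = I) (hle : ∀ O O', e O ≤ e O' ↔ O ≤ O')
  (hZ : ∀ y : X, IsClosed (id ⁻¹' {y} : Set X))
  {B : X → Type u} [∀ y, NonUnitalCStarAlgebra (B y)] [∀ y, PartialOrder (B y)]
  [∀ y, StarOrderedRing (B y)] {π : ∀ y, A →⋆ₙₐ[ℂ] B y}
  (hk : ∀ y x, π y x = 0 ↔ x ∈ e (co (hZ y)))

omit [T2Space X] in
include he hs hle hk in
/-- the norms are lower semicontinuous -/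
theorem isOpen_norm_gt (a : A) (s : ℝ) : IsOpen {t | s < ‖π t a‖} := by
  rcases lt_trichotomy s 0 with h | h | h
  · have : {t | s < ‖π t a‖} = Set.univ :=
      Set.eq_univ_of_forall fun t => h.trans_le (norm_nonneg _)
    rw [this]
    exact isOpen_univ
  · subst h
    obtain ⟨V, hV⟩ := exists_supp he hs hle a
    have : {t | 0 < ‖π t a‖} = (V : Set X) := by
      ext t
      show 0 < ‖π t a‖ ↔ t ∈ V
      rw [norm_pos_iff, ne_eq, hk, hV]
      constructor
      · intro h
        by_contra htV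
        exact h fun x hx hxt => htV (by
          have : x = t := hxt
          rwa [this] at hx)
      · exact fun h h' => h' h rfl
    rw [this]
    exact V.2
  · obtain ⟨V, hV⟩ := exists_supp he hs hle (R2.H28.cut (star a * a) (s * s))
    have : {t | s < ‖π t a‖} = (V : Set X) := by
      ext t
      show s < ‖π t a‖ ↔ t ∈ V
      have h1 : s < ‖π t a‖ ↔ ¬ ‖π t (star a * a)‖ ≤ s * s := by
        rw [map_mul, map_star, CStarRing.norm_star_mul_self, not_le]
        constructor
        · intro h2; nlinarith [norm_nonneg (π t a)]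
        · intro h2
          by_contra h3
          push Not at h3
          nlinarith [norm_nonneg (π t a)]
      rw [h1, ← cut_mem_iff (hk t) (star_mul_self_nonneg a) (mul_pos h h), hV]
      constructor
      · intro h
        by_contra htV
        exact h fun x hx hxt => htV (by
          have : x = t := hxt
          rwa [this] at hx)
      · exact fun h h' => h' h rfl
    rw [this]
    exact V.2

include he hs hle hk in
/-- the norms are continuous -/
theorem continuous_norm_fibre [LocallyCompactSpace X] (a : A) : Continuous fun t => ‖π t a‖ := by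
  rw [OrderTopology.continuous_iff]
  intro r
  refine ⟨isOpen_norm_gt he hs hle hZ hk a r, ?_⟩
  rcases le_or_gt r 0 with h | h
  · have : (fun t => ‖π t a‖) ⁻¹' Set.Iio r = ∅ :=
      Set.eq_empty_of_forall_notMem fun t ht =>
        absurd (ht.trans_le h) (not_lt.2 (norm_nonneg (π t a)))
    rw [this]
    exact isOpen_empty
  · have h1 := (isCompact_fibres he hs hle continuous_id hZ hk a h).isClosed.isOpen_compl
    have : (fun t => ‖π t a‖) ⁻¹' Set.Iio r = {t | r ≤ ‖π t a‖}ᶜ := by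
      ext t
      show ‖π t a‖ < r ↔ ¬ r ≤ ‖π t a‖
      exact not_le.symm
    rw [this]
    exact h1

omit [T2Space X] in
include he hs hle hk in
/-- the fibres are simple -/
theorem isSimple_fibre (hπ : ∀ t, Function.Surjective (π t)) (t : X) : IsSimpleC (B t) := by
  intro a b ha
  obtain ⟨I, hI, hI'⟩ := isClosedIdeal_inId a
  obtain ⟨O, hO⟩ := hs _ (Vale.Agent.P133.H779.isClosedIdeal_comap (π t) hI)
  have hm : ∀ x, x ∈ e O ↔ π t x ∈ I := fun x => by rw [hO]; exact Iff.rfl
  have h1 : co (hZ t) ≤ O := by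
    rw [← hle]
    intro x hx
    rw [hm, (hk t x).2 hx]
    exact I.zero_mem
  have h2 : t ∈ O := by
    by_contra htO
    have h3 : O ≤ co (hZ t) := fun x hx hxt => htO (by
      have : x = t := hxt
      rwa [this] at hx)
    obtain ⟨a', rfl⟩ := hπ t a
    refine ha ((hk t a').2 ((hle _ _).2 h3 ((hm a').2 ((hI' _).2 (InId.refl _)))))
  have h3 : O = ⊤ := by
    refine top_le_iff.1 fun x _ => ?_
    by_cases hx : x = t
    · rw [hx]; exact h2
    · exact h1 hx
  obtain ⟨b', rfl⟩ := hπ t b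
  obtain ⟨O', hO'⟩ := hs ⊤ ⟨isClosed_univ, fun _ _ _ => ⟨Submodule.mem_top, Submodule.mem_top⟩⟩
  have h4 : b' ∈ e O := by
    rw [h3]
    refine (hle O' ⊤).2 le_top ?_
    rw [hO']
    exact Submodule.mem_top
  exact (hI' _).1 ((hm b').1 h4)

end

/-- **Hausdorff primitive ideal spaces.** -/
theorem exists_field_of_hausdorff {X : Type u} [TopologicalSpace X] [T2Space X] {A : Type u}
    [NonUnitalCStarAlgebra A] [PartialOrder A] [StarOrderedRing A] (hX : OpenSets X A) :
    LocallyCompactSpace X ∧ ∃ (B : X → Type u) (_ : ∀ t, NonUnitalCStarAlgebra (B t))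
      (_ : ∀ t, PartialOrder (B t)) (_ : ∀ t, StarOrderedRing (B t)) (π : ∀ t, A →⋆ₙₐ[ℂ] B t),
      (∀ t, Function.Surjective (π t)) ∧
      (∀ (a : A) (r : ℝ), 0 ≤ r → (∀ t, ‖π t a‖ ≤ r) → ‖a‖ ≤ r) ∧
      (∀ (a : A) (r : ℝ), 0 < r → IsCompact {t | r ≤ ‖π t a‖}) ∧
      (∀ f : C(X, ℝ), (∀ t, 0 ≤ f t ∧ f t ≤ 1) → ∀ a : A, ∃ b : A, ∀ t,
        π t b = (f t : ℂ) • π t a) ∧
      (∀ a : A, Continuous fun t => ‖π t a‖) ∧ ∀ t, IsSimpleC (B t) := by
  have hlc : LocallyCompactSpace X := locallyCompact_of_coreCompact (core_compact hX)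
  obtain ⟨e, he, hs, hle⟩ := hX
  have hZ : ∀ y : X, IsClosed (id ⁻¹' {y} : Set X) := fun y =>
    isClosed_singleton.preimage continuous_id
  choose B i1 i2 i3 π hπ hk using fun y => (he (co (hZ y))).quot
  refine ⟨hlc, B, i1, i2, i3, π, hπ,
    fun a r hr h1 => norm_le_of_fibres he hs hle hZ hk hr h1,
    fun a r hr => isCompact_fibres he hs hle continuous_id hZ hk a hr, fun g hg a =>
      exists_mul he hs hle continuous_id hZ hk g.continuous (fun y => (hg y).1)
        (fun y => (hg y).2) a,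
    fun a => continuous_norm_fibre he hs hle hZ hk a,
    fun t => isSimple_fibre he hs hle hZ hk hπ t⟩

end Vale.Agent.P133.W634
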