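import Mathlib.Analysis.CStarAlgebra.Unitization
import Vale.Agent.P133.R2.H778.Seq
import Vale.Agent.P133.R2.H474.Her
import Vale.Agent.P133.H832.SimpleDef

/-!
P133 (helper695), block P of line W634: an infinite sequence of orthogonal projections near a point
`t0` at which the fibre is simple and purely infinite.
-/

open scoped ComplexOrder

namespace Vale.Agent.P133.W634.H695

universe u v


theorem proj_ring {R : Type*} [Ring R] [StarRing R] {v : R} (hv : star v * v = 1) {P : ℕ → R}
    (h0 : P 0 = 1 - v * star v) (hs : ∀ j, P (j + 1) = v * P j * star v) :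
    ∀ i j, P i * P j = if i = j then P i else 0 := by
  have hv0 : star v * P 0 = 0 := by
    rw [h0, mul_sub, mul_one, ← mul_assoc, hv, one_mul, sub_self]
  have h0v : P 0 * v = 0 := by
    rw [h0, sub_mul, one_mul, mul_assoc, hv, mul_one, sub_self]
  intro i
  induction i with
  | zero =>
    intro j
    cases j with
    | zero =>
      rw [if_pos rfl]
      nth_rewrite 1 [h0]
      rw [sub_mul, one_mul, mul_assoc, hv0, mul_zero, sub_zero]
    | succ j =>
      rw [if_neg (by omega), hs, ← mul_assoc, ← mul_assoc, h0v, zero_mul, zero_mul]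
  | succ i ih =>
    intro j
    cases j with
    | zero => rw [if_neg (by omega), hs, mul_assoc, hv0, mul_zero]
    | succ j =>
      have e : P (i + 1) * P (j + 1) = v * (P i * P j) * star v := by
        rw [hs, hs]
        calc v * P i * star v * (v * P j * star v)
            = v * P i * (star v * v) * P j * star v := by simp only [mul_assoc]
          _ = _ := by rw [hv, mul_one]; simp only [mul_assoc]
      rw [e, ih j]
      by_cases hij : i = j
      · rw [if_pos hij, if_pos (by omega), hs]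
      · rw [if_neg hij, if_neg (by omega), mul_zero, zero_mul]

theorem proj_ne {R : Type*} [Ring R] [StarRing R] {v : R} (hv : star v * v = 1) {P : ℕ → R}
    (hs : ∀ j, P (j + 1) = v * P j * star v) (h : P 0 ≠ 0) : ∀ i, P i ≠ 0 := by
  intro i
  induction i with
  | zero => exact h
  | succ i ih =>
    intro h1
    apply ih
    have e : star v * P (i + 1) * v = P i := by
      rw [hs]
      calc star v * (v * P i * star v) * v = (star v * v) * P i * (star v * v) := by
            simp only [mul_assoc]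
        _ = _ := by rw [hv, one_mul, mul_one]
    rw [← e, h1, mul_zero, zero_mul]

section

variable {A : Type u} [NonUnitalCStarAlgebra A] [PartialOrder A] [StarOrderedRing A]

/-- the compression of a difference is not one-sided -/
theorem part_ne {c g b : A} (hc : IsSelfAdjoint c) (hg : IsSelfAdjoint g) (hb : 0 ≤ b)
    (hb0 : b ≠ 0) (hbc : b ∈ closure (Set.range fun w => c * w * c)) {σ : ℝ} (hσ : σ * σ = 1)
    (hbg : b * g * b = σ • (b * b * b)) {F : ℝ → ℝ} (hF : Continuous F) (hF0 : F 0 = 0)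
    (hFs : ∀ t, F t = 0 → σ * t ≤ 0) : cfcₙ F (c * g * c) ≠ 0 := by
  intro h
  have hsb : star b = b := (IsSelfAdjoint.of_nonneg hb).star_eq
  have hsa : IsSelfAdjoint (c * g * c) := by
    show star (c * g * c) = c * g * c
    rw [star_mul, star_mul, hc.star_eq, hg.star_eq, mul_assoc]
  have h1 : 0 ≤ (-σ) • (c * g * c) := by
    have e : (-σ) • (c * g * c) = cfcₙ (fun s : ℝ => (-σ) • s) (c * g * c) := by
      rw [cfcₙ_smul (-σ) (fun s : ℝ => s) (c * g * c) (by fun_prop) rfl, cfcₙ_id' ℝ (c * g * c)]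
    rw [e]
    refine cfcₙ_nonneg fun s hs => ?_
    have h2 := norm_apply_le_norm_cfcₙ F (c * g * c) hs hF.continuousOn hF0 hsa
    rw [h, norm_zero] at h2
    have h3 := hFs s (norm_le_zero_iff.1 h2)
    simp only [smul_eq_mul]
    linarith
  have h2 : ∀ v : A, v ∈ closure (Set.range fun w => c * w * c) →
      0 ≤ (-σ) • (star v * g * v) := by
    intro v hv
    have hcl : IsClosed {v : A | 0 ≤ (-σ) • (star v * g * v)} := by
      have h4 : Continuous fun v : A => (-σ) • (star v * g * v) := by fun_prop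
      exact (CStarAlgebra.isClosed_nonneg (A := A)).preimage h4
    refine (closure_minimal ?_ hcl) hv
    rintro _ ⟨w, rfl⟩
    show 0 ≤ (-σ) • (star (c * w * c) * g * (c * w * c))
    have h5 : (-σ) • (star (c * w * c) * g * (c * w * c)) =
        star (w * c) * ((-σ) • (c * g * c)) * (w * c) := by
      rw [mul_smul_comm, smul_mul_assoc, mul_assoc c w c, star_mul c (w * c), hc.star_eq]
      simp only [mul_assoc]
    rw [h5]
    exact star_left_conjugate_nonneg h1 _
  have h3 := h2 b hbc
  rw [hsb, hbg, smul_smul, neg_mul, hσ, neg_smul, one_smul] at h3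
  have h4 : 0 ≤ b * b * b := by
    have := star_left_conjugate_nonneg hb b
    rwa [hsb] at this
  have h5 : b * b * b = 0 := le_antisymm (neg_nonneg.1 h3) h4
  apply hb0
  have h6 : star (b * b) * (b * b) = 0 := by
    rw [star_mul, hsb, ← mul_assoc, h5, zero_mul]
  have h7 := CStarRing.star_mul_self_eq_zero_iff _ |>.1 h6
  have h8 : star b * b = 0 := by rw [hsb]; exact h7
  exact CStarRing.star_mul_self_eq_zero_iff _ |>.1 h8

end



section

variable {A : Type u} [NonUnitalCStarAlgebra A]

/-- the function which is `1` beyond `r / 2` -/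
noncomputable def ff (r s : ℝ) : ℝ := max (min (2 * s / r) 1) 0

theorem ff_cont (r : ℝ) : Continuous (ff r) := by unfold ff; fun_prop

theorem ff_zero (r : ℝ) : ff r 0 = 0 := by
  unfold ff
  rw [mul_zero, zero_div, min_eq_left zero_le_one, max_self]

theorem ff_nonneg (r s : ℝ) : 0 ≤ ff r s := le_max_right _ _

theorem ff_le (r s : ℝ) : ff r s ≤ 1 := max_le (min_le_right _ _) zero_le_one

theorem ff_one {r s : ℝ} (hr : 0 < r) (hs : r / 2 ≤ s) : ff r s = 1 := by
  unfold ff
  rw [min_eq_right, max_eq_left zero_le_one]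
  rw [le_div_iff₀ hr]
  linarith

/-- `1 - √(1 - f³)` -/
noncomputable def mm (r s : ℝ) : ℝ := 1 - √(1 - ff r s * ff r s * ff r s)

theorem mm_cont (r : ℝ) : Continuous (mm r) := by
  have := ff_cont r
  unfold mm; fun_prop

theorem mm_zero (r : ℝ) : mm r 0 = 0 := by
  unfold mm
  rw [ff_zero]
  simp

theorem mm_eq (r s : ℝ) : mm r s + mm r s - mm r s * mm r s = ff r s * ff r s * ff r s := by
  have h1 : ff r s * ff r s * ff r s ≤ 1 := by
    have h2 := ff_nonneg r s
    have h3 := ff_le r s
    have h4 : ff r s * ff r s ≤ 1 := mul_le_one₀ h3 h2 h3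
    exact mul_le_one₀ h4 h2 h3
  have h5 := Real.mul_self_sqrt (sub_nonneg.2 h1)
  unfold mm
  linear_combination (-1 : ℝ) * h5

/-- the cut function -/
noncomputable def cc (r s : ℝ) : ℝ := max (s - r / 2) 0

theorem cc_cont (r : ℝ) : Continuous (cc r) := by unfold cc; fun_prop

theorem cc_zero {r : ℝ} (hr : 0 < r) : cc r 0 = 0 := by
  unfold cc; exact max_eq_right (by linarith)

theorem mm_cc {r : ℝ} (hr : 0 < r) (s : ℝ) : mm r s * cc r s = cc r s := by
  rcases le_total (r / 2) s with h | h
  · unfold mm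
    rw [ff_one hr h]
    simp
  · have : cc r s = 0 := by unfold cc; exact max_eq_right (by linarith)
    rw [this, mul_zero]

theorem M_eq (a : A) (r : ℝ) : cfcₙ (mm r) a + cfcₙ (mm r) a - cfcₙ (mm r) a * cfcₙ (mm r) a =
    cfcₙ (ff r) a * cfcₙ (ff r) a * cfcₙ (ff r) a := by
  have hf := ff_cont r
  have hm := mm_cont r
  have hf0 := ff_zero r
  have hm0 := mm_zero r
  rw [← cfcₙ_mul (ff r) (ff r) a hf.continuousOn hf0 hf.continuousOn hf0,
    ← cfcₙ_mul (fun s => ff r s * ff r s) (ff r) a (hf.mul hf).continuousOn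
      (by simp only [hf0, mul_zero]) hf.continuousOn hf0,
    ← cfcₙ_mul (mm r) (mm r) a hm.continuousOn hm0 hm.continuousOn hm0,
    ← cfcₙ_add (mm r) (mm r) a hm.continuousOn hm0 hm.continuousOn hm0,
    ← cfcₙ_sub (fun s => mm r s + mm r s) (fun s => mm r s * mm r s) a (hm.add hm).continuousOn
      (by simp only [hm0, add_zero]) (hm.mul hm).continuousOn (by simp only [hm0, mul_zero])]
  congr 1
  funext s
  exact mm_eq r s

theorem M_c (a : A) {r : ℝ} (hr : 0 < r) : cfcₙ (mm r) a * cfcₙ (cc r) a = cfcₙ (cc r) a := by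
  rw [← cfcₙ_mul (mm r) (cc r) a (mm_cont r).continuousOn (mm_zero r) (cc_cont r).continuousOn
    (cc_zero hr)]
  congr 1
  funext s
  exact mm_cc hr s

/-- `s g s s` as a function of `d` -/
theorem sandwich {d : A} (hd : IsSelfAdjoint d) {g : ℝ → ℝ} (hg : Continuous g) (hg0 : g 0 = 0) :
    cfcₙ (fun s => s * g s * s) d = d * cfcₙ g d * d := by
  rw [cfcₙ_mul (fun s => s * g s) (fun s => s) d (continuous_id.mul hg).continuousOn (by simp)
      (by fun_prop) rfl,
    cfcₙ_mul (fun s => s) g d (by fun_prop) rfl hg.continuousOn hg0, cfcₙ_id' ℝ d]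

/-- `(1 + s)^(-1/2) - 1` for `s ≥ -1/2` -/
noncomputable def hh (s : ℝ) : ℝ := (√(1 + max s (-(1 / 2))))⁻¹ - 1

theorem hh_cont : Continuous hh := by
  unfold hh
  refine Continuous.sub (Continuous.inv₀ (by fun_prop) fun s => ?_) continuous_const
  have : 0 < 1 + max s (-(1 / 2)) := by
    have := le_max_right s (-(1 / 2) : ℝ)
    linarith
  exact (Real.sqrt_pos.2 this).ne'

theorem hh_zero : hh 0 = 0 := by
  unfold hh
  rw [max_eq_left (by norm_num)]
  simp

/-- `(1 + h)² (1 + s) - 1` -/
noncomputable def nn (s : ℝ) : ℝ := hh s + hh s + hh s * hh s + s + hh s * s + s * hh s +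
  hh s * s * hh s

theorem nn_eq {s : ℝ} (hs : -(1 / 2) ≤ s) : nn s = 0 := by
  have h1 : 0 < 1 + s := by linarith
  have h2 : 0 < √(1 + s) := Real.sqrt_pos.2 h1
  have h3 := Real.mul_self_sqrt h1.le
  have h4 : hh s = (√(1 + s))⁻¹ - 1 := by unfold hh; rw [max_eq_left hs]
  have h5 : (√(1 + s))⁻¹ * (√(1 + s))⁻¹ * (1 + s) = 1 := by
    rw [← mul_inv, h3, inv_mul_cancel₀ h1.ne']
  unfold nn
  rw [h4]
  linear_combination h5

theorem T_eq (R : A) (hR : IsSelfAdjoint R) : cfcₙ hh R + cfcₙ hh R + cfcₙ hh R * cfcₙ hh R + R +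
    cfcₙ hh R * R + R * cfcₙ hh R + cfcₙ hh R * R * cfcₙ hh R = cfcₙ nn R := by
  have h := hh_cont
  have h0 := hh_zero
  have hi : cfcₙ (fun s : ℝ => s) R = R := cfcₙ_id' ℝ R
  have e1 : cfcₙ (fun s => hh s + hh s) R = cfcₙ hh R + cfcₙ hh R :=
    cfcₙ_add hh hh R h.continuousOn h0 h.continuousOn h0
  have e2 : cfcₙ (fun s => hh s * hh s) R = cfcₙ hh R * cfcₙ hh R :=
    cfcₙ_mul hh hh R h.continuousOn h0 h.continuousOn h0
  have e3 : cfcₙ (fun s => hh s * s) R = cfcₙ hh R * R := by
    rw [cfcₙ_mul hh (fun s => s) R h.continuousOn h0 (by fun_prop) rfl, hi]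
  have e4 : cfcₙ (fun s => s * hh s) R = R * cfcₙ hh R := by
    rw [cfcₙ_mul (fun s => s) hh R (by fun_prop) rfl h.continuousOn h0, hi]
  have e5 : cfcₙ (fun s => hh s * s * hh s) R = cfcₙ hh R * R * cfcₙ hh R := by
    rw [cfcₙ_mul (fun s => hh s * s) hh R (by fun_prop) (by simp [h0]) h.continuousOn h0, e3]
  have e6 : cfcₙ (fun s => hh s + hh s + hh s * hh s) R =
      cfcₙ hh R + cfcₙ hh R + cfcₙ hh R * cfcₙ hh R := by
    rw [cfcₙ_add (fun s => hh s + hh s) (fun s => hh s * hh s) R (by fun_prop) (by simp [h0])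
      (by fun_prop) (by simp [h0]), e1, e2]
  have e7 : cfcₙ (fun s => hh s + hh s + hh s * hh s + s) R =
      cfcₙ hh R + cfcₙ hh R + cfcₙ hh R * cfcₙ hh R + R := by
    rw [cfcₙ_add (fun s => hh s + hh s + hh s * hh s) (fun s => s) R (by fun_prop) (by simp [h0])
      (by fun_prop) rfl, e6, hi]
  have e8 : cfcₙ (fun s => hh s + hh s + hh s * hh s + s + hh s * s) R =
      cfcₙ hh R + cfcₙ hh R + cfcₙ hh R * cfcₙ hh R + R + cfcₙ hh R * R := by
    rw [cfcₙ_add (fun s => hh s + hh s + hh s * hh s + s) (fun s => hh s * s) R (by fun_prop)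
      (by simp [h0]) (by fun_prop) (by simp [h0]), e7, e3]
  have e9 : cfcₙ (fun s => hh s + hh s + hh s * hh s + s + hh s * s + s * hh s) R =
      cfcₙ hh R + cfcₙ hh R + cfcₙ hh R * cfcₙ hh R + R + cfcₙ hh R * R + R * cfcₙ hh R := by
    rw [cfcₙ_add (fun s => hh s + hh s + hh s * hh s + s + hh s * s) (fun s => s * hh s) R
      (by fun_prop) (by simp [h0]) (by fun_prop) (by simp [h0]), e8, e4]
  rw [← e9, ← e5]
  exact (cfcₙ_add (fun s => hh s + hh s + hh s * hh s + s + hh s * s + s * hh s)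
    (fun s => hh s * s * hh s) R (by fun_prop) (by simp [h0]) (by fun_prop) (by simp [h0])).symm

theorem nn_zero_of {R : A} (hR : IsSelfAdjoint R) (h : ‖R‖ ≤ 1 / 2) : cfcₙ nn R = 0 := by
  rw [← norm_le_zero_iff]
  refine norm_cfcₙ_le fun s hs => ?_
  have h3 : ‖s‖ ≤ ‖R‖ := by
    have := norm_apply_le_norm_cfcₙ (fun x : ℝ => x) R hs
    rwa [cfcₙ_id' ℝ R] at this
  rw [Real.norm_eq_abs] at h3
  have h4 := abs_le.1 (h3.trans h)
  rw [nn_eq h4.1, norm_zero]

end



section

variable {A : Type u} [NonUnitalRing A] [StarRing A]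

theorem Y_alg {β e M q : A} (hβ : star β = β) (hM : star M = M)
    (hMβ : M * β = β) (hβM : β * M = β) (hq : M + M - M * M = q) :
    star (β * e - M) * (β * e - M) + (β * e - M) + star (β * e - M) =
      star e * (β * β) * e - q := by
  have e1 : star (β * e - M) = star e * β - M := by rw [star_sub, star_mul, hβ, hM]
  rw [e1, ← hq, sub_mul, mul_sub, mul_sub, mul_assoc (star e) β M, hβM, ← mul_assoc M β e, hMβ,
    mul_assoc (star e) β (β * e), mul_assoc (star e) (β * β) e, mul_assoc β β e]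
  abel

theorem y_alg {Y R w T : A} (hw : star w = w) (hR : star Y * Y + Y + star Y = R)
    (hT : w + w + w * w + R + w * R + R * w + w * R * w = T) :
    star (Y + w + Y * w) * (Y + w + Y * w) + (Y + w + Y * w) + star (Y + w + Y * w) = T := by
  rw [← hT, ← hR]
  simp only [star_add, star_mul, hw, add_mul, mul_add, mul_assoc]
  abel

theorem z_alg {β e M z : A} (hβ : star β = β) (hM : star M = M) (hz : β * z = 0)
    (hMz : M * z = z) : star (β * e - M) * z = -z := by
  rw [star_sub, star_mul, hβ, hM, sub_mul, mul_assoc, hz, mul_zero, hMz, zero_sub]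

theorem z_alg' {Y w z : A} (hw : star w = w) (hz : star Y * z = -z) :
    star (Y + w + Y * w) * z = -z := by
  simp only [star_add, star_mul, hw, add_mul, mul_assoc, hz]
  rw [mul_neg]
  abel

theorem P_z {y z : A} (hz : star y * z = -z) : -(y + star y + y * star y) * z = z := by
  rw [neg_mul, add_mul, add_mul, mul_assoc, hz, mul_neg]
  abel

/-- the projections -/
def PP (y : A) : ℕ → A
  | 0 => -(y + star y + y * star y)
  | j + 1 => PP y j + y * PP y j + PP y j * star y + y * PP y j * star y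

theorem PP_star (y : A) (j : ℕ) : star (PP y j) = PP y j := by
  induction j with
  | zero =>
    show star (-(y + star y + y * star y)) = -(y + star y + y * star y)
    rw [star_neg, star_add, star_add, star_mul, star_star]
    abel
  | succ j ih =>
    show star (PP y j + y * PP y j + PP y j * star y + y * PP y j * star y) =
      PP y j + y * PP y j + PP y j * star y + y * PP y j * star y
    rw [star_add, star_add, star_add, star_mul, star_mul, star_mul, star_mul, star_star, ih,
      ← mul_assoc]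
    abel

end

section

variable {A : Type u} [NonUnitalCStarAlgebra A]

theorem v_star {y : A} (hy : star y * y + y + star y = 0) :
    star (1 + (y : Unitization ℂ A)) * (1 + (y : Unitization ℂ A)) = 1 := by
  have h : star (1 + (y : Unitization ℂ A)) * (1 + (y : Unitization ℂ A)) =
      1 + ((star y * y + y + star y : A) : Unitization ℂ A) := by
    rw [star_add, star_one, ← Unitization.inr_star, Unitization.inr_add, Unitization.inr_add,
      Unitization.inr_mul]
    noncomm_ring
  rw [h, hy, Unitization.inr_zero, add_zero]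

theorem P_coe (y : A) : ((PP y 0 : A) : Unitization ℂ A) =
    1 - (1 + (y : Unitization ℂ A)) * star (1 + (y : Unitization ℂ A)) := by
  show ((-(y + star y + y * star y) : A) : Unitization ℂ A) = _
  rw [star_add, star_one, ← Unitization.inr_star, Unitization.inr_neg, Unitization.inr_add,
    Unitization.inr_add, Unitization.inr_mul]
  noncomm_ring

theorem P_coe_succ (y : A) (j : ℕ) : ((PP y (j + 1) : A) : Unitization ℂ A) =
    (1 + (y : Unitization ℂ A)) * ((PP y j : A) : Unitization ℂ A) *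
      star (1 + (y : Unitization ℂ A)) := by
  show ((PP y j + y * PP y j + PP y j * star y + y * PP y j * star y : A) : Unitization ℂ A) = _
  rw [star_add, star_one, ← Unitization.inr_star]
  simp only [Unitization.inr_add, Unitization.inr_mul]
  noncomm_ring

theorem map_PP {B : Type*} [NonUnitalCStarAlgebra B] (φ : A →⋆ₙₐ[ℂ] B) (y : A) (j : ℕ) :
    φ (PP y j) = PP (φ y) j := by
  induction j with
  | zero =>
    show φ (-(y + star y + y * star y)) = -(φ y + star (φ y) + φ y * star (φ y))
    rw [map_neg, map_add, map_add, map_mul, map_star]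
  | succ j ih =>
    show φ (PP y j + y * PP y j + PP y j * star y + y * PP y j * star y) =
      PP (φ y) j + φ y * PP (φ y) j + PP (φ y) j * star (φ y) + φ y * PP (φ y) j * star (φ y)
    rw [map_add, map_add, map_add, map_mul, map_mul, map_mul, map_mul, map_star, ih]

end


section

open Vale.Agent.P133 Vale.Agent.P133.Statement Vale.Agent.P133.H832 Vale.Agent.P133.R2.H28
  Vale.Agent.P133.R2.H778 Vale.Agent.P133F Vale.Agent.P133.H681

variable {A : Type u} [NonUnitalCStarAlgebra A] [PartialOrder A] [StarOrderedRing A]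
  {B : Type u} [NonUnitalCStarAlgebra B] [PartialOrder B] [StarOrderedRing B]

/-- the positive part, cubed -/
noncomputable def fp (s : ℝ) : ℝ := s * max s 0 * s

/-- the negative part, cubed -/
noncomputable def fm (s : ℝ) : ℝ := s * max (-s) 0 * s

theorem fp_cont : Continuous fp := by unfold fp; fun_prop

theorem fm_cont : Continuous fm := by unfold fm; fun_prop

theorem fp_zero : fp 0 = 0 := by unfold fp; simp

theorem fm_zero : fm 0 = 0 := by unfold fm; simp

theorem fp_fm (s : ℝ) : fp s * fm s = 0 := by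
  unfold fp fm
  rcases le_total s 0 with h | h
  · rw [max_eq_right h]; simp
  · rw [max_eq_right (a := -s) (by linarith)]; simp

theorem fp_sign {s : ℝ} (h : fp s = 0) : (1 : ℝ) * s ≤ 0 := by
  by_contra h1
  push Not at h1
  rw [one_mul] at h1
  unfold fp at h
  rw [max_eq_left h1.le] at h
  have : 0 < s * s * s := by positivity
  linarith

theorem fm_sign {s : ℝ} (h : fm s = 0) : (-1 : ℝ) * s ≤ 0 := by
  by_contra h1
  push Not at h1
  have h2 : s < 0 := by linarith
  unfold fm at h
  rw [max_eq_left (by linarith)] at h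
  have h3 : 0 < s * -s * s := by
    have h4 : 0 < (-s) * (-s) * (-s) := by
      have : 0 < -s := by linarith
      positivity
    linarith [show s * -s * s = (-s) * (-s) * (-s) by ring]
  linarith

/-- two orthogonal elements with nonzero images, and a comparison -/
theorem exists_lift {φ : A →⋆ₙₐ[ℂ] B} (hs : Function.Surjective φ) (hsimp : IsSimpleC B)
    (hPI : PurelyInfinite B) {a : A} (ha : 0 ≤ a) (h0 : φ a ≠ 0) :
    ∃ d e : A, IsSelfAdjoint d ∧ φ (cfcₙ fp d) ≠ 0 ∧ φ (cfcₙ fm d) ≠ 0 ∧
      cfcₙ (mm ‖φ a‖) a * d = d ∧ d ∈ Vale.Agent.P133.R2.H474.her a ∧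
      ‖φ (star (e * cfcₙ (ff ‖φ a‖) a) * (cfcₙ fp d * cfcₙ fp d) * (e * cfcₙ (ff ‖φ a‖) a) -
        cfcₙ (ff ‖φ a‖) a * cfcₙ (ff ‖φ a‖) a * cfcₙ (ff ‖φ a‖) a)‖ < 1 / 2 := by
  set r : ℝ := ‖φ a‖ with hr
  have hr0 : 0 < r := norm_pos_iff.2 h0
  have hsa : IsSelfAdjoint a := IsSelfAdjoint.of_nonneg ha
  have hφa : 0 ≤ φ a := R2.H778.map_nonneg' φ ha
  set c : A := cfcₙ (cc r) a with hc
  have hcc : c = R2.H28.cut a (r / 2) := rfl
  have hc0 : 0 ≤ c := by rw [hcc]; exact R2.H28.cut_nonneg a (r / 2)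
  have hcs : IsSelfAdjoint c := IsSelfAdjoint.of_nonneg hc0
  have hφc : φ c = R2.H28.cut (φ a) (r / 2) := by rw [hcc]; exact map_cut φ ha (by positivity)
  have hφc0 : 0 ≤ φ c := R2.H778.map_nonneg' φ hc0
  have hn1 : r / 2 ≤ ‖φ c‖ := by
    have h1 := norm_cut_sub_le hφa (half_pos hr0)
    rw [← hφc] at h1
    have h2 : ‖φ a‖ ≤ ‖φ c‖ + ‖φ c - φ a‖ := by
      calc ‖φ a‖ = ‖φ c - (φ c - φ a)‖ := by rw [sub_sub_cancel]
        _ ≤ _ := norm_sub_le _ _
    linarith
  have hcut : R2.H28.cut (φ c) (r / 4) ≠ 0 := by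
    intro h
    have h1 := norm_cut_sub_le hφc0 (ε := r / 4) (by positivity)
    rw [h, zero_sub, norm_neg] at h1
    linarith
  obtain ⟨b₁, b₂, hb1, hb2, h12, hm1, hm2, hI1, hI2⟩ :=
    (twoOrth_of_eltPI (eltPI_of B hPI)) (φ c) hφc0 (r / 4) (by positivity)
  have hI0 : ∀ b : B, InId b (R2.H28.cut (φ c) (r / 4)) → b ≠ 0 := by
    intro b hb h
    apply hcut
    rw [← norm_le_zero_iff]
    refine le_of_forall_pos_le_add fun ε hε => ?_
    obtain ⟨m, x, y, hxy⟩ := hb ε hε
    rw [h] at hxy
    simp only [mul_zero, zero_mul, Finset.sum_const_zero, zero_sub, norm_neg] at hxy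
    linarith
  have hs1 : star b₁ = b₁ := (IsSelfAdjoint.of_nonneg hb1).star_eq
  have hs2 : star b₂ = b₂ := (IsSelfAdjoint.of_nonneg hb2).star_eq
  have h21 : b₂ * b₁ = 0 := by
    have h3 := congrArg star h12
    rwa [star_mul, star_zero, hs1, hs2] at h3
  obtain ⟨u', hu'⟩ := hs (b₁ - b₂)
  set w : A := (2⁻¹ : ℝ) • (u' + star u') with hw
  have hws : star w = w := by
    rw [hw, star_smul, star_trivial, star_add, star_star, add_comm]
  have hφw : φ w = b₁ - b₂ := by
    rw [hw, map_smul_real, map_add, map_star, hu', star_sub, hs1, hs2, ← two_smul ℝ (b₁ - b₂),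
      smul_smul]
    norm_num
  have hgs : IsSelfAdjoint (b₁ - b₂) := by
    show star (b₁ - b₂) = b₁ - b₂
    rw [star_sub, hs1, hs2]
  set d : A := c * w * c with hd
  have hds : IsSelfAdjoint d := by
    show star (c * w * c) = c * w * c
    rw [star_mul, star_mul, hcs.star_eq, hws, mul_assoc]
  have hφd : φ d = φ c * (b₁ - b₂) * φ c := by rw [hd, map_mul, map_mul, hφw]
  have hφcs : IsSelfAdjoint (φ c) := IsSelfAdjoint.of_nonneg hφc0
  have hφds : IsSelfAdjoint (φ d) := by
    show star (φ d) = φ d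
    rw [← map_star, hds.star_eq]
  have hmapp : φ (cfcₙ fp d) = cfcₙ fp (φ d) :=
    NonUnitalStarAlgHomClass.map_cfcₙ φ fp d (hf := fp_cont.continuousOn) (hf₀ := fp_zero)
      (hφ := map_continuous φ) (ha := hds) (hφa := hφds)
  have hmapm : φ (cfcₙ fm d) = cfcₙ fm (φ d) :=
    NonUnitalStarAlgHomClass.map_cfcₙ φ fm d (hf := fm_cont.continuousOn) (hf₀ := fm_zero)
      (hφ := map_continuous φ) (ha := hds) (hφa := hφds)
  have hp : φ (cfcₙ fp d) ≠ 0 := by
    rw [hmapp, hφd]
    refine part_ne (b := b₁) hφcs hgs hb1 (hI0 _ hI1) hm1 (σ := 1) (one_mul 1) ?_ fp_cont fp_zero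
      fun t => fp_sign
    rw [one_smul, mul_sub, sub_mul, h12, zero_mul, sub_zero]
  have hm : φ (cfcₙ fm d) ≠ 0 := by
    rw [hmapm, hφd]
    refine part_ne (b := b₂) hφcs hgs hb2 (hI0 _ hI2) hm2 (σ := -1) (by norm_num) ?_ fm_cont
      fm_zero fun t => fm_sign
    rw [neg_smul, one_smul, mul_sub, sub_mul, h21, zero_mul, zero_sub]
  set β : A := cfcₙ fp d with hβ
  have hβs : star β = β := (cfcₙ_predicate fp d : IsSelfAdjoint _).star_eq
  have hφβs : star (φ β) = φ β := by rw [← map_star, hβs]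
  have hbb0 : 0 ≤ φ β * φ β := by
    have := star_mul_self_nonneg (φ β)
    rwa [hφβs] at this
  have hbb : φ β * φ β ≠ 0 := by
    intro h
    apply hp
    have h2 : star (φ β) * φ β = 0 := by rw [hφβs]; exact h
    exact CStarRing.star_mul_self_eq_zero_iff _ |>.1 h2
  set q : A := cfcₙ (ff r) a with hq
  have hq0 : 0 ≤ q := cfcₙ_nonneg fun _ _ => ff_nonneg r _
  have hqn : ‖q‖ ≤ 1 := norm_cfcₙ_le fun s _ => by
    rw [Real.norm_eq_abs, abs_of_nonneg (ff_nonneg r s)]; exact ff_le r s
  have hφq : ‖φ q‖ ≤ 1 := (NonUnitalStarAlgHom.norm_apply_le φ _).trans hqn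
  have hφqs : star (φ q) = φ q := (IsSelfAdjoint.of_nonneg (R2.H778.map_nonneg' φ hq0)).star_eq
  obtain ⟨-, hB⟩ := infB_of_pi (eltPI_of B hPI) hbb0 (R2.H778.map_nonneg' φ hq0)
    (fun ε hε => hsimp _ _ hbb ε hε)
  obtain ⟨x, hx⟩ := hB 1 (1 / 2) (by norm_num)
  have hx0 := hx 0 0
  rw [if_pos rfl] at hx0
  obtain ⟨e, he⟩ := hs (x 0)
  refine ⟨d, e, hds, hp, hm, ?_, ?_, ?_⟩
  · rw [hd, ← mul_assoc, ← mul_assoc, M_c a hr0]
  · rw [hd]
    have hca : c ∈ R2.H474.her a :=
      R2.H474.her_cfc hsa (R2.H474.self_mem_her hsa) (cc_cont r) (cc_zero hr0)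
    exact R2.H474.her_mid hca _ hca
  · have e1 : φ (star (e * q) * (β * β) * (e * q) - q * q * q) =
        φ q * (star (x 0) * (φ β * φ β) * x 0 - φ q) * φ q := by
      rw [map_sub, map_mul, map_mul, map_mul, map_mul, map_mul, map_mul, map_star, map_mul, he,
        star_mul, hφqs, mul_sub, sub_mul]
      simp only [mul_assoc]
    rw [e1]
    calc _ ≤ ‖φ q‖ * ‖star (x 0) * (φ β * φ β) * x 0 - φ q‖ * ‖φ q‖ := by
          refine (norm_mul_le _ _).trans ?_
          gcongr
          exact norm_mul_le _ _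
      _ ≤ 1 * ‖star (x 0) * (φ β * φ β) * x 0 - φ q‖ * 1 := by gcongr
      _ < 1 / 2 := by rw [one_mul, mul_one]; exact hx0

end

section

open Vale.Agent.P133 Vale.Agent.P133.Statement Vale.Agent.P133.H832 Vale.Agent.P133.R2.H28
  Vale.Agent.P133.R2.H778 Vale.Agent.P133F Vale.Agent.P133.H681 Vale.Agent.P133.R2.H474

variable {X : Type v} [TopologicalSpace X] {B : X → Type u} [∀ t, NonUnitalCStarAlgebra (B t)]
  [∀ t, PartialOrder (B t)] [∀ t, StarOrderedRing (B t)] {A : Type u} [NonUnitalCStarAlgebra A]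
  [PartialOrder A] [StarOrderedRing A]

/-- block P: local projections -/
theorem local_proj {π : ∀ t, A →⋆ₙₐ[ℂ] B t} (hc : ∀ a : A, Continuous fun t => ‖π t a‖) {t0 : X}
    (hs : Function.Surjective (π t0)) (hsimp : IsSimpleC (B t0)) (hPI : PurelyInfinite (B t0))
    {a : A} (ha : 0 ≤ a) (h0 : π t0 a ≠ 0) :
    ∃ (P : ℕ → A) (V : Set X), IsOpen V ∧ t0 ∈ V ∧ (∀ j, IsSelfAdjoint (P j)) ∧
      (∀ j, P j ∈ Her a) ∧ ∀ t ∈ V, (∀ i j, π t (P i * P j) = if i = j then π t (P i) else 0) ∧
        ∀ i, π t (P i) ≠ 0 := by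
  obtain ⟨d, e0, hds, hp, hm, hMd, hda, hR⟩ := exists_lift hs hsimp hPI ha h0
  set r : ℝ := ‖π t0 a‖ with hr
  have hr0 : 0 < r := norm_pos_iff.2 h0
  have hsa : IsSelfAdjoint a := IsSelfAdjoint.of_nonneg ha
  set M : A := cfcₙ (mm r) a with hM
  set q : A := cfcₙ (ff r) a with hq
  set β : A := cfcₙ fp d with hβ
  set z : A := cfcₙ fm d with hz
  have hMs : star M = M := (cfcₙ_predicate (mm r) a : IsSelfAdjoint _).star_eq
  have hqs : star q = q := (cfcₙ_predicate (ff r) a : IsSelfAdjoint _).star_eq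
  have hβs : star β = β := (cfcₙ_predicate fp d : IsSelfAdjoint _).star_eq
  have hβd : β = d * cfcₙ (fun s : ℝ => max s 0) d * d :=
    sandwich hds (g := fun s : ℝ => max s 0) (by fun_prop) (by simp)
  have hzd : z = d * cfcₙ (fun s : ℝ => max (-s) 0) d * d :=
    sandwich hds (g := fun s : ℝ => max (-s) 0) (by fun_prop) (by simp)
  have hMβ : M * β = β := by rw [hβd, ← mul_assoc, ← mul_assoc, hMd]
  have hMz : M * z = z := by rw [hzd, ← mul_assoc, ← mul_assoc, hMd]
  have hβM : β * M = β := by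
    have := congrArg star hMβ
    rwa [star_mul, hβs, hMs] at this
  have hβz : β * z = 0 := by
    rw [hβ, hz, ← cfcₙ_mul fp fm d fp_cont.continuousOn fp_zero fm_cont.continuousOn fm_zero]
    have : (fun s => fp s * fm s) = fun _ => (0 : ℝ) := funext fp_fm
    rw [this]
    exact cfcₙ_const_zero ℝ d
  have hMq : M + M - M * M = q * q * q := M_eq a r
  set e : A := e0 * q with he
  set R : A := star e * (β * β) * e - q * q * q with hRdef
  set Y : A := β * e - M with hY
  have hYR : star Y * Y + Y + star Y = R := Y_alg hβs hMs hMβ hβM hMq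
  have hRs : IsSelfAdjoint R := by
    show star R = R
    rw [← hYR, star_add, star_add, star_mul, star_star]
    abel
  set w : A := cfcₙ hh R with hw
  have hws : star w = w := (cfcₙ_predicate hh R : IsSelfAdjoint _).star_eq
  set y : A := Y + w + Y * w with hy
  have hyT : star y * y + y + star y = cfcₙ nn R := y_alg hws hYR (T_eq R hRs)
  have hyz : star y * z = -z := z_alg' hws (z_alg hβs hMs hβz hMz)
  have hPz : PP y 0 * z = z := P_z hyz
  -- membership
  have hqa : q ∈ her a := her_cfc hsa (self_mem_her hsa) (ff_cont r) (ff_zero r)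
  have hMa : M ∈ her a := her_cfc hsa (self_mem_her hsa) (mm_cont r) (mm_zero r)
  have hβa : β ∈ her a := her_cfc hds hda fp_cont fp_zero
  have hYa : Y ∈ her a := by
    refine (her a).sub_mem ?_ hMa
    have : β * e = β * e0 * q := by rw [he, mul_assoc]
    rw [this]
    exact her_mid hβa _ hqa
  have hYsa : star Y ∈ her a := her_star hsa.star_eq hYa
  have hRa : R ∈ her a := by
    rw [← hYR]
    exact (her a).add_mem ((her a).add_mem (her_mul hYsa hYa) hYa) hYsa
  have hwa : w ∈ her a := her_cfc hRs hRa hh_cont hh_zero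
  have hya : y ∈ her a := (her a).add_mem ((her a).add_mem hYa hwa) (her_mul hYa hwa)
  have hysa : star y ∈ her a := her_star hsa.star_eq hya
  have hPa : ∀ j, PP y j ∈ her a := by
    intro j
    induction j with
    | zero =>
      exact (her a).neg_mem ((her a).add_mem ((her a).add_mem hya hysa) (her_mul hya hysa))
    | succ j ih =>
      exact (her a).add_mem ((her a).add_mem ((her a).add_mem ih (her_mul hya ih))
        (her_mul ih hysa)) (her_mid hya _ hysa)
  refine ⟨PP y, {t | ‖π t R‖ < 1 / 2} ∩ {t | 0 < ‖π t z‖}, ?_, ⟨hR, norm_pos_iff.2 hm⟩,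
    fun j => PP_star y j, fun j => hPa j, fun t ht => ?_⟩
  · exact (isOpen_lt (hc R) continuous_const).inter (isOpen_lt continuous_const (hc z))
  obtain ⟨ht1, ht2⟩ := ht
  have hπR : IsSelfAdjoint (π t R) := by
    show star (π t R) = π t R
    rw [← map_star, hRs.star_eq]
  have hnn : Continuous nn := by
    have := hh_cont
    unfold nn; fun_prop
  have hT : π t (cfcₙ nn R) = 0 := by
    rw [NonUnitalStarAlgHomClass.map_cfcₙ (π t) nn R (hf := hnn.continuousOn)
      (hf₀ := by unfold nn; simp [hh_zero]) (hφ := map_continuous (π t)) (ha := hRs) (hφa := hπR)]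
    exact nn_zero_of hπR (le_of_lt ht1)
  have hyt : star (π t y) * π t y + π t y + star (π t y) = 0 := by
    have h1 := congrArg (π t) hyT
    rw [hT, map_add (π t) (star y * y + y) (star y), map_add (π t) (star y * y) y,
      map_mul (π t) (star y) y, map_star (π t) y] at h1
    exact h1
  have hv := v_star hyt
  have hinj : Function.Injective (fun x : B t => (x : Unitization ℂ (B t))) :=
    Unitization.inr_injective
  have hP0 := P_coe (π t y)
  have hPs := P_coe_succ (π t y)
  constructor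
  · intro i j
    rw [map_mul, map_PP, map_PP]
    apply hinj
    show ((PP (π t y) i * PP (π t y) j : B t) : Unitization ℂ (B t)) = _
    rw [Unitization.inr_mul]
    have h1 := proj_ring (P := fun j => ((PP (π t y) j : B t) : Unitization ℂ (B t))) hv hP0
      hPs i j
    refine h1.trans ?_
    by_cases hij : i = j
    · simp only [hij, if_true]
    · simp only [hij, if_false, Unitization.inr_zero]
  · intro i h
    have h1 : π t (PP y 0) ≠ 0 := by
      intro h2
      have h3 := congrArg (π t) hPz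
      rw [map_mul, h2, zero_mul] at h3
      exact (norm_pos_iff.1 ht2) h3.symm
    have h2 : ((PP (π t y) 0 : B t) : Unitization ℂ (B t)) ≠ 0 := by
      intro h3
      apply h1
      rw [map_PP]
      apply hinj
      simpa using h3
    have h3 := proj_ne (P := fun j => ((PP (π t y) j : B t) : Unitization ℂ (B t))) hv hPs h2 i
    apply h3
    show ((PP (π t y) i : B t) : Unitization ℂ (B t)) = 0
    rw [← map_PP, h, Unitization.inr_zero]

end

end Vale.Agent.P133.W634.H695
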